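import Mathlib

/-!
The Bernoulli product weight on finite subsets, and elementary Fourier identities for it.
-/

set_option autoImplicit false

namespace Crest.Agent.R52

open Finset

section Bern

variable {α : Type} [Fintype α] [DecidableEq α]

/-- Bernoulli product weight of a subset -/
noncomputable def wt (p : ℝ) (S : Finset α) : ℝ := ∏ x, if x ∈ S then p else 1 - p

lemma wt_nonneg {p : ℝ} (hp0 : 0 ≤ p) (hp1 : p ≤ 1) (S : Finset α) : 0 ≤ wt p S := by
  apply prod_nonneg
  intro x _
  split_ifs <;> linarith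

lemma wt_eq (p : ℝ) (S : Finset α) :
    wt p S = p ^ S.card * (1 - p) ^ (Fintype.card α - S.card) := by
  unfold wt
  rw [← prod_mul_prod_compl S, ← card_compl, ← prod_const, ← prod_const]
  congr 1
  · exact prod_congr rfl (fun x hx => by simp [hx])
  · exact prod_congr rfl (fun x hx => by rw [mem_compl] at hx; simp [hx])

lemma sum_finset_prod (f g : α → ℝ) :
    ∑ S : Finset α, ∏ x, (if x ∈ S then f x else g x) = ∏ x, (f x + g x) := by
  rw [prod_add, powerset_univ]
  apply sum_congr rfl
  intro S _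
  rw [← prod_mul_prod_compl S, ← compl_eq_univ_sdiff]
  congr 1
  · exact prod_congr rfl (fun x hx => by simp [hx])
  · exact prod_congr rfl (fun x hx => by rw [mem_compl] at hx; simp [hx])

lemma sum_wt (p : ℝ) : ∑ S : Finset α, wt p S = 1 := by
  unfold wt
  rw [sum_finset_prod]
  simp

/-- expectation of a product of one-coordinate functions -/
lemma sum_wt_mul_prod (p : ℝ) (f g : α → ℝ) :
    ∑ S : Finset α, wt p S * ∏ x, (if x ∈ S then f x else g x) =
      ∏ x, (p * f x + (1 - p) * g x) := by
  rw [← sum_finset_prod]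
  apply sum_congr rfl
  intro S _
  unfold wt
  rw [← prod_mul_distrib]
  apply prod_congr rfl
  intro x _
  split_ifs <;> rfl

lemma sum_union_wt (p q : ℝ) (U : Finset α) :
    ∑ S : Finset α, ∑ T : Finset α, (if S ∪ T = U then wt p S * wt q T else 0) =
      wt (p + q - p * q) U := by
  have h1 : ∀ S T : Finset α, (if S ∪ T = U then wt p S * wt q T else 0) =
      wt p S * (wt q T * ∏ x, (if x ∈ T then (if x ∈ U then 1 else 0) else
        (if (x ∈ S ↔ x ∈ U) then 1 else 0))) := by
    intro S T
    split_ifs with h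
    · rw [prod_eq_one, mul_one]
      intro x _
      subst h
      by_cases hx : x ∈ T <;> simp [hx]
    · have : ∃ x, ¬ (x ∈ S ∪ T ↔ x ∈ U) := by
        by_contra hc
        push Not at hc
        exact h (Finset.ext hc)
      obtain ⟨x, hx⟩ := this
      rw [prod_eq_zero (mem_univ x)]
      · simp
      · by_cases hxT : x ∈ T
        · simp [hxT] at hx ⊢; exact hx
        · simp only [mem_union, hxT, or_false] at hx
          simp [hxT, hx]
  simp only [h1, ← mul_sum, sum_wt_mul_prod]
  have h2 : ∀ S : Finset α, ∏ x, (q * (if x ∈ U then 1 else 0) +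
      (1 - q) * (if (x ∈ S ↔ x ∈ U) then 1 else 0)) =
      ∏ x, (if x ∈ S then (if x ∈ U then (1 : ℝ) else 0) else (if x ∈ U then q else 1 - q)) := by
    intro S
    apply prod_congr rfl
    intro x _
    by_cases hS : x ∈ S <;> by_cases hU : x ∈ U <;> simp [hS, hU]
  simp only [h2, sum_wt_mul_prod]
  unfold wt
  apply prod_congr rfl
  intro x _
  split_ifs <;> ring

lemma wt_union_le {p q : ℝ} (hp0 : 0 ≤ p) (hp1 : p ≤ 1) (hq0 : 0 ≤ q) (hq1 : q ≤ 1)
    (A B C : Finset (Finset α)) (h : ∀ S ∈ A, ∀ T ∈ B, S ∪ T ∈ C) :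
    (∑ S ∈ A, wt p S) * (∑ T ∈ B, wt q T) ≤ ∑ U ∈ C, wt (p + q - p * q) U := by
  simp only [← sum_union_wt]
  rw [sum_mul_sum, sum_comm (s := C)]
  have hnn : ∀ S T : Finset α, 0 ≤ ∑ U ∈ C, (if S ∪ T = U then wt p S * wt q T else 0) := by
    intro S T
    apply sum_nonneg
    intro U _
    split_ifs
    · exact mul_nonneg (wt_nonneg hp0 hp1 _) (wt_nonneg hq0 hq1 _)
    · exact le_rfl
  calc ∑ S ∈ A, ∑ T ∈ B, wt p S * wt q T
      ≤ ∑ S ∈ A, ∑ T : Finset α, ∑ U ∈ C, (if S ∪ T = U then wt p S * wt q T else 0) := by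
        apply sum_le_sum
        intro S hS
        refine le_trans (le_of_eq ?_) (sum_le_sum_of_subset_of_nonneg (subset_univ B)
          (fun T _ _ => hnn S T))
        apply sum_congr rfl
        intro T hT
        rw [sum_ite_eq, if_pos (h S hS T hT)]
    _ ≤ ∑ S : Finset α, ∑ T : Finset α, ∑ U ∈ C, (if S ∪ T = U then wt p S * wt q T else 0) :=
        sum_le_sum_of_subset_of_nonneg (subset_univ A)
          (fun S _ _ => sum_nonneg (fun T _ => hnn S T))
    _ = _ := by
        apply sum_congr rfl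
        intro S _
        rw [sum_comm]

/-- centred and normalised coordinate function -/
noncomputable def psi (p : ℝ) (S : Finset α) (x : α) : ℝ := if x ∈ S then (1 - p) / p else -1

/-- A large family yields a cheap fractional cover of the sets that are not inside a union
of two members. -/
theorem exists_frac_cover {p : ℝ} (hp0 : 0 < p) (hp1 : p < 1) (A : Finset (Finset α))
    (hA : 2 / 3 ≤ ∑ S ∈ A, wt p S) :
    ∃ g : Finset α → ℝ, (∀ I, 0 ≤ g I) ∧
      (∀ U : Finset α, (∀ S ∈ A, ∀ T ∈ A, ¬ U ⊆ S ∪ T) → 1 ≤ ∑ I ∈ U.powerset, g I) ∧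
      ∑ I : Finset α, g I * (p / (1 - p)) ^ I.card ≤ 1 / 2 := by
  set a := ∑ S ∈ A, wt p S with ha
  have ha0 : 0 < a := by linarith
  let h : Finset α → ℝ := fun I => ∑ S ∈ A, wt p S * ∏ x ∈ I, psi p S x
  have hh0 : h ∅ = a := by simp [h, ha]
  have hexp : ∀ (c : ℝ) (U : Finset α), ∑ I ∈ U.powerset, c ^ I.card * h I ^ 2 =
      ∑ S ∈ A, ∑ T ∈ A, wt p S * wt p T * ∏ x ∈ U, (1 + c * (psi p S x * psi p T x)) := by
    intro c U
    simp only [prod_one_add, mul_sum]
    simp only [h, sq, sum_mul_sum]
    simp only [mul_sum]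
    rw [sum_comm]
    apply sum_congr rfl
    intro S _
    rw [sum_comm]
    apply sum_congr rfl
    intro T _
    apply sum_congr rfl
    intro I _
    rw [prod_mul_distrib, prod_mul_distrib, prod_const]
    ring
  have hq : 0 < 1 - p := by linarith
  refine ⟨fun I => if I = ∅ then 0 else h I ^ 2 / a ^ 2, ?_, ?_, ?_⟩
  · intro I
    dsimp only
    split_ifs <;> positivity
  · intro U hU
    have h1 := hexp (-1) U
    have h2 : ∑ S ∈ A, ∑ T ∈ A, wt p S * wt p T *
        ∏ x ∈ U, (1 + (-1) * (psi p S x * psi p T x)) = 0 := by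
      apply sum_eq_zero; intro S hS
      apply sum_eq_zero; intro T hT
      obtain ⟨x, hxU, hx⟩ := not_subset.mp (hU S hS T hT)
      rw [mem_union, not_or] at hx
      rw [prod_eq_zero hxU, mul_zero]
      simp [psi, hx.1, hx.2]
    rw [h2, ← add_sum_erase _ _ (empty_mem_powerset U), hh0] at h1
    rw [← add_sum_erase _ _ (empty_mem_powerset U)]
    simp only [if_true, zero_add]
    have h3 : ∑ I ∈ U.powerset.erase ∅, (if I = ∅ then 0 else h I ^ 2 / a ^ 2) =
        (∑ I ∈ U.powerset.erase ∅, h I ^ 2) / a ^ 2 := by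
      rw [sum_div]
      apply sum_congr rfl
      intro I hI
      rw [if_neg (mem_erase.mp hI).1]
    rw [h3, one_le_div (by positivity)]
    have h4 : ∑ I ∈ U.powerset.erase ∅, -(h I ^ 2) ≤
        ∑ I ∈ U.powerset.erase ∅, (-1) ^ I.card * h I ^ 2 := by
      apply sum_le_sum
      intro I _
      have : (0 : ℝ) ≤ h I ^ 2 := sq_nonneg _
      rcases neg_one_pow_eq_or ℝ I.card with h | h <;> rw [h] <;> linarith
    rw [sum_neg_distrib] at h4
    simp only [card_empty, pow_zero, one_mul] at h1
    linarith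
  · have h1 := hexp (p / (1 - p)) univ
    have h2 : ∑ S ∈ A, ∑ T ∈ A, wt p S * wt p T *
        ∏ x, (1 + (p / (1 - p)) * (psi p S x * psi p T x)) = a := by
      rw [ha]
      apply sum_congr rfl
      intro S hS
      rw [sum_eq_single S]
      · rw [mul_assoc]
        conv_rhs => rw [← mul_one (wt p S)]
        congr 1
        unfold wt
        rw [← prod_mul_distrib]
        apply prod_eq_one
        intro x _
        unfold psi
        split_ifs <;> field_simp <;> ring
      · intro T _ hTS
        have : ∃ x, ¬ (x ∈ T ↔ x ∈ S) := by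
          by_contra hc
          push Not at hc
          exact hTS (Finset.ext hc)
        obtain ⟨x, hx⟩ := this
        rw [prod_eq_zero (mem_univ x), mul_zero]
        unfold psi
        by_cases hxS : x ∈ S
        · have hxT : x ∉ T := fun h => hx (iff_of_true h hxS)
          simp only [hxS, hxT, if_true, if_false]
          field_simp; ring
        · have hxT : x ∈ T := by
            by_contra h; exact hx (iff_of_false h hxS)
          simp only [hxS, hxT, if_true, if_false]
          field_simp; ring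
      · intro h; exact absurd hS h
    rw [h2, powerset_univ, ← add_sum_erase _ _ (mem_univ ∅), hh0] at h1
    rw [← add_sum_erase _ _ (mem_univ ∅)]
    simp only [if_true, zero_mul, zero_add]
    have h3 : ∑ I ∈ (univ : Finset (Finset α)).erase ∅,
        (if I = ∅ then 0 else h I ^ 2 / a ^ 2) * (p / (1 - p)) ^ I.card =
        (∑ I ∈ (univ : Finset (Finset α)).erase ∅, (p / (1 - p)) ^ I.card * h I ^ 2) / a ^ 2 := by
      rw [sum_div]
      apply sum_congr rfl
      intro I hI
      rw [if_neg (mem_erase.mp hI).1]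
      ring
    rw [h3, div_le_iff₀ (by positivity)]
    simp only [card_empty, pow_zero, one_mul] at h1
    nlinarith

lemma exists_union_family {p : ℝ} (hp0 : 0 ≤ p) (hp1 : p ≤ 1) (D : Finset (Finset α)) (k : ℕ) :
    ∃ A : Finset (Finset α), (∑ S ∈ D, wt p S) ^ k ≤ ∑ S ∈ A, wt (1 - (1 - p) ^ k) S ∧
      ∀ S ∈ A, ∃ L : Finset (Finset α), L ⊆ D ∧ L.card ≤ k ∧ S ⊆ L.biUnion id := by
  induction k with
  | zero =>
    refine ⟨{∅}, ?_, ?_⟩
    · simp [wt]
    · intro S hS
      rw [mem_singleton] at hS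
      exact ⟨∅, by simp, by simp, by simp [hS]⟩
  | succ k ih =>
    obtain ⟨A, hA1, hA2⟩ := ih
    have hq : (1 - p) ^ k ≤ 1 := pow_le_one₀ (by linarith) (by linarith)
    have hq0 : 0 ≤ (1 - p) ^ k := pow_nonneg (by linarith) k
    refine ⟨image₂ (· ∪ ·) A D, ?_, ?_⟩
    · have h1 := wt_union_le (p := 1 - (1 - p) ^ k) (q := p) (by linarith) (by linarith) hp0 hp1
        A D (image₂ (· ∪ ·) A D) (fun S hS T hT => mem_image₂_of_mem hS hT)
      rw [show 1 - (1 - p) ^ k + p - (1 - (1 - p) ^ k) * p = 1 - (1 - p) ^ (k + 1) by ring] at h1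
      refine le_trans ?_ h1
      rw [pow_succ]
      exact mul_le_mul_of_nonneg_right hA1 (sum_nonneg (fun S _ => wt_nonneg hp0 hp1 S))
    · intro U hU
      obtain ⟨S, hS, T, hT, rfl⟩ := mem_image₂.mp hU
      obtain ⟨L, hL1, hL2, hL3⟩ := hA2 S hS
      refine ⟨insert T L, insert_subset hT hL1, (card_insert_le _ _).trans (by omega), ?_⟩
      rw [biUnion_insert]
      intro x hx
      rw [mem_union] at hx ⊢
      rcases hx with hx | hx
      · exact Or.inr (hL3 hx)
      · exact Or.inl hx

end Bern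

end Crest.Agent.R52
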