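import Mathlib
import Crest.Agent.R52.Bern

/-!
More finite probability: orthogonality, marginals, product spaces, Markov-type bounds.
-/

set_option autoImplicit false

namespace Crest.Agent.R52

open Finset

section Prob

variable {α : Type} [Fintype α] [DecidableEq α]

lemma psi_orth {p : ℝ} (hp : p ≠ 0) (I J : Finset α) :
    ∑ S : Finset α, wt p S * ((∏ x ∈ I, psi p S x) * ∏ x ∈ J, psi p S x) =
      if I = J then ((1 - p) / p) ^ I.card else 0 := by
  have h1 : ∀ S : Finset α, (∏ x ∈ I, psi p S x) * ∏ x ∈ J, psi p S x =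
      ∏ x, (if x ∈ S then (if x ∈ I then (1 - p) / p else 1) * (if x ∈ J then (1 - p) / p else 1)
        else (if x ∈ I then -1 else 1) * (if x ∈ J then -1 else 1)) := by
    intro S
    rw [← univ_inter I, ← univ_inter J, ← prod_ite_mem, ← prod_ite_mem, ← prod_mul_distrib]
    apply prod_congr rfl
    intro x _
    unfold psi
    simp only [univ_inter]
    split_ifs <;> rfl
  simp only [h1, sum_wt_mul_prod]
  split_ifs with h
  · subst h
    rw [← prod_const, ← univ_inter I, ← prod_ite_mem]
    apply prod_congr rfl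
    intro x _
    simp only [univ_inter]
    split_ifs
    · field_simp; ring
    · ring
  · have : ∃ x, ¬ (x ∈ I ↔ x ∈ J) := by
      by_contra hc
      push Not at hc
      exact h (Finset.ext hc)
    obtain ⟨x, hx⟩ := this
    apply prod_eq_zero (mem_univ x)
    by_cases hI : x ∈ I
    · have hJ : x ∉ J := fun h => hx (iff_of_true hI h)
      simp only [hI, hJ, if_true, if_false]
      field_simp; ring
    · have hJ : x ∈ J := by
        by_contra h; exact hx (iff_of_false hI h)
      simp only [hI, hJ, if_true, if_false]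
      field_simp; ring

lemma psi_mean {p : ℝ} (hp : p ≠ 0) (I : Finset α) :
    ∑ S : Finset α, wt p S * (∏ x ∈ I, psi p S x) = if I = ∅ then 1 else 0 := by
  have := psi_orth hp I ∅
  simp only [prod_empty, mul_one] at this
  rw [this]
  split_ifs with h
  · simp [h]
  · rfl

lemma psi_half_compl (S : Finset α) (x : α) : psi (1 / 2) Sᶜ x = - psi (1 / 2) S x := by
  unfold psi
  by_cases h : x ∈ S <;> simp [h] <;> norm_num

omit [Fintype α] in
lemma psi_half_sq (S : Finset α) (x : α) : psi (1 / 2) S x * psi (1 / 2) S x = 1 := by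
  unfold psi
  split_ifs <;> norm_num

lemma wt_half_compl (S : Finset α) : wt (1 / 2) Sᶜ = wt (1 / 2) S := by
  unfold wt
  apply prod_congr rfl
  intro x _
  split_ifs <;> norm_num

/-- marginal of the product weight along an injection -/
lemma sum_wt_marginal {β : Type} [Fintype β] [DecidableEq β] (p : ℝ) (ι : β → α)
    (hι : Function.Injective ι) (F : Finset β → ℝ) :
    ∑ S : Finset α, wt p S * F (univ.filter (fun b => ι b ∈ S)) =
      ∑ T : Finset β, wt p T * F T := by
  have h1 : ∀ S : Finset α, wt p S * F (univ.filter (fun b => ι b ∈ S)) =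
      ∑ T : Finset β, F T * (wt p S *
        ∏ x, (if x ∈ S then (if x ∈ (univ \ T).image ι then 0 else 1)
          else (if x ∈ T.image ι then 0 else 1))) := by
    intro S
    rw [sum_eq_single (univ.filter (fun b => ι b ∈ S))]
    · rw [prod_eq_one, mul_one, mul_comm]
      intro x _
      split_ifs with h1 h2 h3
      · obtain ⟨b, hb, rfl⟩ := mem_image.mp h2
        simp [h1] at hb
      · rfl
      · obtain ⟨b, hb, rfl⟩ := mem_image.mp h3
        simp [h1] at hb
      · rfl
    · intro T _ hT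
      have : ∃ b, ¬ (b ∈ T ↔ ι b ∈ S) := by
        by_contra hc
        push Not at hc
        apply hT
        ext b
        simp [hc b]
      obtain ⟨b, hb⟩ := this
      rw [prod_eq_zero (mem_univ (ι b))]
      · simp
      · by_cases hS : ι b ∈ S
        · have hT : b ∉ T := fun h => hb (iff_of_true h hS)
          rw [if_pos hS, if_pos (mem_image_of_mem _ (by simp [hT]))]
        · have hT : b ∈ T := by
            by_contra h; exact hb (iff_of_false h hS)
          rw [if_neg hS, if_pos (mem_image_of_mem _ hT)]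
    · simp
  simp only [h1]
  rw [sum_comm]
  apply sum_congr rfl
  intro T _
  rw [← mul_sum, sum_wt_mul_prod, mul_comm]
  congr 1
  unfold wt
  rw [← prod_mul_prod_compl (univ.image ι), prod_image (fun a _ b _ h => hι h)]
  have h2 : ∏ x ∈ (univ.image ι)ᶜ, (p * (if x ∈ (univ \ T).image ι then (0 : ℝ) else 1) +
      (1 - p) * (if x ∈ T.image ι then 0 else 1)) = 1 := by
    apply prod_eq_one
    intro x hx
    rw [mem_compl] at hx
    rw [if_neg (fun h => hx (image_subset_image (subset_univ _) h)),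
      if_neg (fun h => hx (image_subset_image (subset_univ _) h))]
    ring
  rw [h2, mul_one]
  apply prod_congr rfl
  intro b _
  simp only [hι.mem_finset_image]
  by_cases hb : b ∈ T <;> simp [hb]

/-- currying the product weight -/
lemma sum_wt_curry {X U : Type} [Fintype X] [DecidableEq X] [Fintype U] [DecidableEq U] (p : ℝ)
    (F : (X → Finset U) → ℝ) :
    ∑ T : Finset (X × U), wt p T * F (fun x => univ.filter (fun u => (x, u) ∈ T)) =
      ∑ η : X → Finset U, (∏ x, wt p (η x)) * F η := by
  let e : Finset (X × U) ≃ (X → Finset U) :=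
    { toFun := fun T x => univ.filter (fun u => (x, u) ∈ T)
      invFun := fun η => univ.filter (fun z => z.2 ∈ η z.1)
      left_inv := by intro T; ext z; simp
      right_inv := by intro η; funext x; ext u; simp }
  apply Fintype.sum_equiv e
  intro T
  simp only [e, Equiv.coe_fn_mk]
  congr 1
  unfold wt
  rw [Fintype.prod_prod_type]
  simp

lemma sum_wt_biparam {X U : Type} [Fintype X] [DecidableEq X] [Fintype U] [DecidableEq U] (p : ℝ)
    (ι : X → U → α) (hι : ∀ x u x' u', ι x u = ι x' u' → x = x' ∧ u = u')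
    (F : (X → Finset U) → ℝ) :
    ∑ S : Finset α, wt p S * F (fun x => univ.filter (fun u => ι x u ∈ S)) =
      ∑ η : X → Finset U, (∏ x, wt p (η x)) * F η := by
  rw [← sum_wt_curry, ← sum_wt_marginal p (fun z : X × U => ι z.1 z.2)
    (fun z z' h => Prod.ext (hι _ _ _ _ h).1 (hι _ _ _ _ h).2)]
  simp

end Prob

section Prod

variable {X Ω : Type} [Fintype X] [DecidableEq X] [Fintype Ω]

lemma pi_expect_prod (w : Ω → ℝ) (f : X → Ω → ℝ) :
    ∑ η : X → Ω, (∏ x, w (η x)) * ∏ x, f x (η x) = ∏ x, ∑ o, w o * f x o := by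
  rw [Fintype.prod_sum]
  apply sum_congr rfl
  intro η _
  rw [prod_mul_distrib]

lemma pi_sum_one (w : Ω → ℝ) (hw : ∑ o, w o = 1) : ∑ η : X → Ω, ∏ x, w (η x) = 1 := by
  have := pi_expect_prod (X := X) w (fun _ _ => 1)
  simpa [hw] using this

lemma pi_expect_one (w : Ω → ℝ) (hw : ∑ o, w o = 1) (x : X) (f : Ω → ℝ) :
    ∑ η : X → Ω, (∏ x, w (η x)) * f (η x) = ∑ o, w o * f o := by
  have := pi_expect_prod w (fun z o => if z = x then f o else 1)
  simp only [prod_ite_eq', mem_univ, if_true] at this
  rw [this, prod_eq_single x]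
  · simp
  · intro z _ hz
    simp [hz, hw]
  · simp

lemma pi_expect_two (w : Ω → ℝ) (hw : ∑ o, w o = 1) (x y : X) (hxy : x ≠ y) (f g : Ω → ℝ) :
    ∑ η : X → Ω, (∏ x, w (η x)) * (f (η x) * g (η y)) =
      (∑ o, w o * f o) * ∑ o, w o * g o := by
  have := pi_expect_prod w (fun z o => (if z = x then f o else 1) * (if z = y then g o else 1))
  simp only [prod_mul_distrib, prod_ite_eq', mem_univ, if_true] at this
  rw [this, ← mul_prod_erase _ _ (mem_univ x),
    ← mul_prod_erase _ _ (mem_erase.mpr ⟨hxy.symm, mem_univ y⟩), prod_eq_one]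
  · simp [hxy, hxy.symm]
  · intro z hz
    simp only [mem_erase] at hz
    simp [hz.1, hz.2.1, hw]

/-- second moment of a sum of independent centred terms -/
lemma pi_expect_sq_sum (w : Ω → ℝ) (hw : ∑ o, w o = 1) (s : Finset X) (f : X → Ω → ℝ)
    (hf : ∀ x ∈ s, ∑ o, w o * f x o = 0) :
    ∑ η : X → Ω, (∏ x, w (η x)) * (∑ x ∈ s, f x (η x)) ^ 2 =
      ∑ x ∈ s, ∑ o, w o * f x o ^ 2 := by
  simp only [sq, sum_mul_sum]
  simp only [mul_sum]
  rw [sum_comm]
  apply sum_congr rfl
  intro x hx
  rw [sum_comm, sum_eq_single x]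
  · exact pi_expect_one w hw x (fun o => f x o * f x o)
  · intro y _ hyx
    rw [pi_expect_two w hw x y hyx.symm, hf x hx, zero_mul]
  · intro h; exact absurd hx h

omit [Fintype X] [DecidableEq X] in
lemma markov_le (w : Ω → ℝ) (hw : ∀ o, 0 ≤ w o) (Z : Ω → ℝ) (hZ : ∀ o, 0 ≤ Z o) (P : Ω → Prop)
    [DecidablePred P] (hP : ∀ o, P o → 1 ≤ Z o) :
    ∑ o ∈ univ.filter P, w o ≤ ∑ o, w o * Z o := by
  rw [sum_filter]
  apply sum_le_sum
  intro o _
  split_ifs with h
  · exact le_mul_of_one_le_right (hw o) (hP o h)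
  · exact mul_nonneg (hw o) (hZ o)

omit [Fintype X] [DecidableEq X] in
lemma exists_le_expect (w : Ω → ℝ) (hw : ∀ o, 0 ≤ w o) (hw1 : ∑ o, w o = 1) (Z : Ω → ℝ) (c : ℝ)
    (h : ∑ o, w o * Z o ≤ c) : ∃ o, Z o ≤ c := by
  by_contra hc
  push Not at hc
  have hne : ∃ o, w o ≠ 0 := by
    by_contra h0
    push Not at h0
    simp [h0] at hw1
  obtain ⟨o, ho⟩ := hne
  have : ∑ o, w o * c < ∑ o, w o * Z o :=
    sum_lt_sum (fun o _ => mul_le_mul_of_nonneg_left (hc o).le (hw o))
      ⟨o, mem_univ _, mul_lt_mul_of_pos_left (hc o) (lt_of_le_of_ne (hw o) ho.symm)⟩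
  rw [← sum_mul, hw1, one_mul] at this
  linarith

end Prod

end Crest.Agent.R52
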