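import Mathlib
import Crest.Agent.R52.Prob

/-!
A spectral form of Hall's condition for random neighbourhoods.
-/

set_option autoImplicit false

namespace Crest.Agent.R52

open Finset

lemma gram_bound {J A : Type} [Fintype J] [DecidableEq J] [Fintype A] (t : J → ℝ)
    (ht : ∀ j, 0 ≤ t j) (w : J → A → ℝ) (lam ρ : ℝ) (hlam0 : 0 ≤ lam) (hρ0 : 0 ≤ ρ)
    (hlam : ∀ j, t j * ∑ a, w j a * w j a ≤ lam)
    (hρ : ∑ j, ∑ k, (if j = k then 0 else t j * t k * (∑ a, w j a * w k a) ^ 2) ≤ ρ ^ 2)
    (A' : Finset A) :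
    ∑ j, t j * (∑ a ∈ A', w j a) ^ 2 ≤ A'.card * (lam + ρ) := by
  set s : J → ℝ := fun j => ∑ a ∈ A', w j a with hs
  set B := ∑ j, t j * s j ^ 2 with hB
  have hB0 : 0 ≤ B := sum_nonneg (fun j _ => mul_nonneg (ht j) (sq_nonneg _))
  let y : A → ℝ := fun a => ∑ j, t j * s j * w j a
  have h1 : B = ∑ a ∈ A', y a := by
    simp only [y]
    rw [sum_comm]
    apply sum_congr rfl
    intro j _
    rw [← mul_sum]
    simp only [hs]; ring
  have h2 : B ^ 2 ≤ A'.card * ∑ a, y a ^ 2 := by
    rw [h1]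
    refine sq_sum_le_card_mul_sum_sq.trans (mul_le_mul_of_nonneg_left ?_ (Nat.cast_nonneg _))
    exact sum_le_sum_of_subset_of_nonneg (subset_univ _) (fun _ _ _ => sq_nonneg _)
  let Ω : J → J → ℝ := fun j k => ∑ a, w j a * w k a
  have h3 : ∑ a, y a ^ 2 = ∑ j, ∑ k, (t j * s j) * (t k * s k) * Ω j k := by
    simp only [y, sq, sum_mul_sum, Ω]
    simp only [mul_sum]
    rw [sum_comm]
    apply sum_congr rfl
    intro j _
    rw [sum_comm]
    apply sum_congr rfl
    intro k _
    apply sum_congr rfl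
    intro a _
    ring
  have h4 : ∑ j, (t j * s j) * (t j * s j) * Ω j j ≤ lam * B := by
    rw [hB, mul_sum]
    apply sum_le_sum
    intro j _
    have := mul_le_mul_of_nonneg_right (hlam j) (mul_nonneg (ht j) (sq_nonneg (s j)))
    simp only [Ω]
    nlinarith
  have h5 : ∑ j, ∑ k, (if j = k then 0 else (t j * s j) * (t k * s k) * Ω j k) ≤ ρ * B := by
    apply le_of_sq_le_sq _ (mul_nonneg hρ0 hB0)
    rw [← Fintype.sum_prod_type'] at hρ ⊢
    have hcs := sum_sq_le_sum_mul_sum_of_sq_le_mul (univ : Finset (J × J))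
      (r := fun z => if z.1 = z.2 then 0 else (t z.1 * s z.1) * (t z.2 * s z.2) * Ω z.1 z.2)
      (f := fun z => if z.1 = z.2 then 0 else t z.1 * t z.2 * (Ω z.1 z.2) ^ 2)
      (g := fun z => (t z.1 * s z.1 ^ 2) * (t z.2 * s z.2 ^ 2))
      (fun z _ => by
        split_ifs
        · exact le_rfl
        · exact mul_nonneg (mul_nonneg (ht _) (ht _)) (sq_nonneg _))
      (fun z _ => mul_nonneg (mul_nonneg (ht _) (sq_nonneg _)) (mul_nonneg (ht _) (sq_nonneg _)))
      (fun z _ => by
        split_ifs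
        · simp
        · exact le_of_eq (by ring))
    refine hcs.trans ?_
    have : ∑ z : J × J, (t z.1 * s z.1 ^ 2) * (t z.2 * s z.2 ^ 2) = B ^ 2 := by
      rw [hB, sq (∑ j, _), sum_mul_sum, Fintype.sum_prod_type]
    rw [this, mul_pow]
    exact mul_le_mul_of_nonneg_right hρ (sq_nonneg _)
  have h6 : ∑ j, ∑ k, (t j * s j) * (t k * s k) * Ω j k ≤ (lam + ρ) * B := by
    have : ∀ j, ∑ k, (t j * s j) * (t k * s k) * Ω j k =
        (t j * s j) * (t j * s j) * Ω j j +
          ∑ k, (if j = k then 0 else (t j * s j) * (t k * s k) * Ω j k) := by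
      intro j
      rw [← add_sum_erase _ _ (mem_univ j), ← add_sum_erase _ _ (mem_univ j), if_pos rfl, zero_add]
      congr 1
      apply sum_congr rfl
      intro k hk
      rw [if_neg (mem_erase.mp hk).1.symm]
    simp only [this, sum_add_distrib]
    linarith
  rcases hB0.eq_or_lt with h | h
  · rw [← h]; positivity
  · apply le_of_mul_le_mul_right _ h
    have := mul_le_mul_of_nonneg_left h6 (Nat.cast_nonneg (α := ℝ) A'.card)
    nlinarith

section Hub

variable {A U : Type} [Fintype A] [DecidableEq A] [Fintype U] [DecidableEq U]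

/-- signed indicator of `J ⊆ N a` -/
noncomputable def sgn (N Y : A → Finset U) (J : Finset U) (a : A) : ℝ :=
  if J ⊆ N a then ∏ u ∈ J, psi (1 / 2) (Y a) u else 0

omit [Fintype A] [DecidableEq A] [Fintype U] in
lemma prod_psi_half_sq (S J : Finset U) :
    (∏ u ∈ J, psi (1 / 2) S u) * ∏ u ∈ J, psi (1 / 2) S u = 1 := by
  rw [← prod_mul_distrib]
  exact prod_eq_one (fun u _ => psi_half_sq S u)

omit [Fintype A] [DecidableEq A] [Fintype U] in
lemma sgn_mul_self (N Y : A → Finset U) (J : Finset U) (a : A) :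
    sgn N Y J a * sgn N Y J a = if J ⊆ N a then 1 else 0 := by
  unfold sgn
  split_ifs
  · exact prod_psi_half_sq _ _
  · simp

omit [Fintype A] [DecidableEq A] in
lemma sgn_compl (N Y : A → Finset U) (J : Finset U) (a : A) :
    sgn N (fun a => (Y a)ᶜ) J a = (-1) ^ J.card * sgn N Y J a := by
  unfold sgn
  split_ifs
  · simp only [psi_half_compl]
    rw [prod_neg]
  · simp

lemma exists_signs (N : A → Finset U) (θ R : ℝ) (hθ : 0 ≤ θ)
    (hR : ∀ a, (1 + θ) ^ (N a).card ≤ R) :
    ∃ Y : A → Finset U, ∑ J : Finset U, ∑ K : Finset U, (if J = K then 0 else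
      θ ^ J.card * θ ^ K.card * (∑ a, sgn N Y J a * sgn N Y K a) ^ 2) ≤
        Fintype.card A * R ^ 2 := by
  have hw0 : ∀ S : Finset U, 0 ≤ wt (1 / 2) S := wt_nonneg (by norm_num) (by norm_num)
  apply exists_le_expect (fun Y : A → Finset U => ∏ a, wt (1 / 2) (Y a))
    (fun Y => prod_nonneg (fun a _ => hw0 _)) (pi_sum_one _ (sum_wt _))
  simp only [mul_sum]
  rw [sum_comm]
  have h1 : ∀ J : Finset U, ∑ Y : A → Finset U, ∑ K : Finset U, (∏ a, wt (1 / 2) (Y a)) *
      (if J = K then 0 else θ ^ J.card * θ ^ K.card * (∑ a, sgn N Y J a * sgn N Y K a) ^ 2) ≤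
      ∑ K : Finset U, ∑ a, (if J ⊆ N a then θ ^ J.card else 0) *
        (if K ⊆ N a then θ ^ K.card else 0) := by
    intro J
    rw [sum_comm]
    apply sum_le_sum
    intro K _
    by_cases hJK : J = K
    · simp only [hJK, if_true, mul_zero, sum_const_zero]
      apply sum_nonneg
      intro a _
      split_ifs <;> positivity
    · simp only [hJK, if_false]
      let f : A → Finset U → ℝ := fun a S =>
        (if J ⊆ N a then ∏ u ∈ J, psi (1 / 2) S u else 0) *
          (if K ⊆ N a then ∏ u ∈ K, psi (1 / 2) S u else 0)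
      have h2 := pi_expect_sq_sum (wt (1 / 2 : ℝ)) (sum_wt _) univ f (by
        intro a _
        simp only [f]
        split_ifs
        · rw [psi_orth (by norm_num), if_neg hJK]
        all_goals simp)
      simp only [mul_left_comm (∏ a, wt (1 / 2) _) (θ ^ J.card * θ ^ K.card)]
      rw [← mul_sum]
      simp only [sgn]
      simp only [f] at h2
      rw [h2, mul_sum]
      apply le_of_eq
      apply sum_congr rfl
      intro a _
      split_ifs
      · have : ∀ S : Finset U, ((∏ u ∈ J, psi (1 / 2) S u) * ∏ u ∈ K, psi (1 / 2) S u) ^ 2 = 1 := by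
          intro S
          rw [mul_pow, sq, sq, prod_psi_half_sq, prod_psi_half_sq, one_mul]
        simp only [this, mul_one, sum_wt]
      all_goals simp
  refine (sum_le_sum (fun J _ => h1 J)).trans ?_
  simp_rw [sum_comm (s := (univ : Finset (Finset U))) (t := (univ : Finset A))]
  rw [← card_univ, ← nsmul_eq_mul, ← sum_const]
  apply sum_le_sum
  intro a _
  rw [← sum_mul_sum, ← sq]
  have h3 : ∑ J : Finset U, (if J ⊆ N a then θ ^ J.card else 0) = (1 + θ) ^ (N a).card := by
    rw [← prod_const, prod_one_add, ← sum_filter]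
    apply sum_congr
    · ext J; simp
    · intro J _; rw [prod_const]
  rw [h3]
  exact pow_le_pow_left₀ (by positivity) (hR a) 2

/-- the signed kernel attached to `a` -/
noncomputable def kap (p : ℝ) (N Y : A → Finset U) (a : A) (S : Finset U) : ℝ :=
  ∏ u ∈ N a, (1 + psi (1 / 2) (Y a) u * psi p S u)

omit [Fintype A] [DecidableEq A] in
lemma kap_expand (p : ℝ) (N Y : A → Finset U) (a : A) (S : Finset U) :
    kap p N Y a S = ∑ J : Finset U, sgn N Y J a * ∏ u ∈ J, psi p S u := by
  unfold kap sgn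
  simp only [ite_mul, zero_mul]
  rw [prod_one_add, ← sum_filter]
  apply sum_congr
  · ext J; simp
  · intro J _; rw [prod_mul_distrib]

omit [Fintype A] [DecidableEq A] in
lemma kap_mean {p : ℝ} (hp : p ≠ 0) (N Y : A → Finset U) (a : A) :
    ∑ S, wt p S * kap p N Y a S = 1 := by
  simp only [kap_expand, mul_sum]
  rw [sum_comm]
  simp only [mul_left_comm (wt p _), ← mul_sum, psi_mean hp]
  simp [sgn]

omit [Fintype A] [DecidableEq A] in
lemma kap_corr {p : ℝ} (hp : p ≠ 0) (N Y : A → Finset U) (a b : A) :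
    ∑ S, wt p S * (kap p N Y a S * kap p N Y b S) =
      ∑ J : Finset U, ((1 - p) / p) ^ J.card * (sgn N Y J a * sgn N Y J b) := by
  simp only [kap_expand, sum_mul_sum]
  simp only [mul_sum]
  rw [sum_comm]
  apply sum_congr rfl
  intro J _
  rw [sum_comm]
  have : ∀ K : Finset U, ∑ S, wt p S * ((sgn N Y J a * ∏ u ∈ J, psi p S u) *
      (sgn N Y K b * ∏ u ∈ K, psi p S u)) =
      (sgn N Y J a * sgn N Y K b) * if J = K then ((1 - p) / p) ^ J.card else 0 := by
    intro K
    rw [← psi_orth hp, mul_sum]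
    apply sum_congr rfl
    intro S _
    ring
  simp only [this, mul_ite, mul_zero, sum_ite_eq, mem_univ, if_true]
  ring

omit [Fintype A] [DecidableEq A] [Fintype U] in
lemma kap_abs_le {p : ℝ} (hp0 : 0 < p) (hp1 : p ≤ 1) (N Y : A → Finset U) (a : A) (S : Finset U) :
    |kap p N Y a S| ≤ (2 / p) ^ (N a).card := by
  unfold kap
  rw [abs_prod, ← prod_const]
  apply prod_le_prod (fun _ _ => abs_nonneg _)
  intro u _
  have h1 : 0 ≤ (1 - p) / p := div_nonneg (by linarith) hp0.le
  have h2 : 2 / p = 2 + 2 * ((1 - p) / p) := by field_simp; ring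
  rw [h2, abs_le]
  unfold psi
  split_ifs <;> constructor <;> norm_num <;> linarith

omit [Fintype A] [DecidableEq A] [Fintype U] in
lemma kap_eq_zero (p : ℝ) (N Y : A → Finset U) (a : A) (S : Finset U)
    (h : ¬ N a ∩ Y a ⊆ S) : kap p N Y a S = 0 := by
  obtain ⟨u, hu, huS⟩ := not_subset.mp h
  rw [mem_inter] at hu
  apply prod_eq_zero hu.1
  simp only [psi, hu.2, huS, if_true, if_false]
  norm_num

lemma var_le {Ω : Type} [Fintype Ω] (w : Ω → ℝ) (hw0 : ∀ o, 0 ≤ w o) (hw : ∑ o, w o = 1)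
    (f : Ω → ℝ) (μ c : ℝ) (hμ : ∑ o, w o * f o = μ) (hc : ∀ o, |f o| ≤ c) :
    ∑ o, w o * (f o - μ) ^ 2 ≤ c ^ 2 := by
  have h1 : ∀ o, w o * (f o - μ) ^ 2 = w o * f o ^ 2 - 2 * μ * (w o * f o) + μ ^ 2 * w o := by
    intro o; ring
  simp only [h1, sum_add_distrib, sum_sub_distrib, ← mul_sum, hμ, hw]
  have h2 : ∑ o, w o * f o ^ 2 ≤ ∑ o, w o * c ^ 2 :=
    sum_le_sum (fun o _ => mul_le_mul_of_nonneg_left
      (sq_le_sq' (abs_le.mp (hc o)).1 (abs_le.mp (hc o)).2) (hw0 o))
  rw [← sum_mul, hw] at h2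
  nlinarith [sq_nonneg μ]

lemma wt_superset (p : ℝ) (T : Finset U) :
    ∑ S : Finset U, wt p S * (if T ⊆ S then 1 else 0) = p ^ T.card := by
  have h1 : ∀ S : Finset U, (if T ⊆ S then (1 : ℝ) else 0) =
      ∏ x, (if x ∈ S then 1 else (if x ∈ T then 0 else 1)) := by
    intro S
    split_ifs with h
    · symm
      apply prod_eq_one
      intro x _
      split_ifs with h1 h2
      · rfl
      · exact absurd (h h2) h1
      · rfl
    · obtain ⟨x, hx, hxS⟩ := not_subset.mp h
      symm
      apply prod_eq_zero (mem_univ x)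
      simp [hx, hxS]
  simp only [h1, sum_wt_mul_prod]
  rw [← prod_const, ← univ_inter T, ← prod_ite_mem]
  apply prod_congr rfl
  intro x _
  simp only [univ_inter]
  split_ifs <;> ring

open Classical in
theorem hall_prob {X : Type} [Fintype X] [DecidableEq X] {p R : ℝ} (hp0 : 0 < p) (hp1 : p ≤ 1)
    (N Y : A → Finset U) (hR : ∀ a, (2 / p) ^ (N a).card ≤ R) (hR0 : 0 < R)
    (hA : 25 * Fintype.card A ≤ Fintype.card X) (hX : 2 * R ^ 4 ≤ Fintype.card X)
    (M : ℕ) (hM : 16 * R ^ 2 ≤ M)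
    (hM2 : Fintype.card A * 2 ^ M * (1 - 1 / (2 * R)) ^ Fintype.card X ≤ 1 / 8)
    (hgram : ∀ A' : Finset A, ∑ J : Finset U, ((1 - p) / p) ^ J.card *
      (∑ a ∈ A', sgn N Y J a) ^ 2 ≤ (A'.card : ℝ) * ((Fintype.card X : ℝ) / 10)) :
    ∑ η ∈ univ.filter (fun η : X → Finset U =>
      ¬ ∃ f : A → X, Function.Injective f ∧ ∀ a, N a ∩ Y a ⊆ η (f a)),
        ∏ x, wt p (η x) ≤ 1 / 2 := by
  set n : ℝ := (Fintype.card X : ℝ) with hn
  have hn0 : 0 < n := lt_of_lt_of_le (by positivity) hX
  have hAn : 25 * (Fintype.card A : ℝ) ≤ n := by rw [hn]; exact_mod_cast hA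
  have hA0 : (0 : ℝ) ≤ Fintype.card A := Nat.cast_nonneg _
  have hw0 : ∀ S : Finset U, 0 ≤ wt p S := wt_nonneg hp0.le hp1
  have hκ : ∀ a S, |kap p N Y a S| ≤ R := fun a S => (kap_abs_le hp0 hp1 N Y a S).trans (hR a)
  let Γ : A → A → ℝ := fun a b =>
    ∑ J : Finset U, ((1 - p) / p) ^ J.card * (sgn N Y J a * sgn N Y J b)
  let e : A → (X → Finset U) → ℝ := fun a η => ∑ x, (kap p N Y a (η x) - 1)
  let Δ : A → A → (X → Finset U) → ℝ := fun a b η =>
    ∑ x, (kap p N Y a (η x) * kap p N Y b (η x) - Γ a b)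
  let g : A → Finset U → ℝ := fun a S => if N a ∩ Y a ⊆ S then 1 / 2 else 1
  let Z : (X → Finset U) → ℝ := fun η => (∑ a, e a η ^ 2) / (n ^ 2 * R ^ 2) +
    (∑ a, ∑ b, Δ a b η ^ 2) / (n ^ 4 / 100) + ∑ a, 2 ^ M * ∏ x, g a (η x)
  have hg0 : ∀ a S, 0 ≤ g a S := by
    intro a S
    simp only [g]
    split_ifs <;> norm_num
  have hZ1 : ∀ η, 0 ≤ (∑ a, e a η ^ 2) / (n ^ 2 * R ^ 2) := fun η => by positivity
  have hZ2 : ∀ η, 0 ≤ (∑ a, ∑ b, Δ a b η ^ 2) / (n ^ 4 / 100) := fun η => by positivity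
  have hZ3 : ∀ η : X → Finset U, ∀ a ∈ (univ : Finset A), 0 ≤ 2 ^ M * ∏ x, g a (η x) :=
    fun η a _ => mul_nonneg (by positivity) (prod_nonneg (fun x _ => hg0 _ _))
  refine le_trans (markov_le (fun η : X → Finset U => ∏ x, wt p (η x))
    (fun η => prod_nonneg (fun x _ => hw0 _)) Z
    (fun η => add_nonneg (add_nonneg (hZ1 η) (hZ2 η)) (sum_nonneg (hZ3 η))) _ ?_) ?_
  · intro η hη
    by_contra hZ
    push Not at hZ
    apply hη
    let t : A → Finset X := fun a => univ.filter (fun x => N a ∩ Y a ⊆ η x)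
    have hall : ∀ A' : Finset A, A'.card ≤ (A'.biUnion t).card := by
      intro A'
      by_contra hcon
      push Not at hcon
      have hs3 := sum_nonneg (hZ3 η)
      have h1 := hZ1 η
      have h2 := hZ2 η
      have hmM : M < A'.card := by
        obtain ⟨a, ha⟩ := card_pos.mp (lt_of_le_of_lt (Nat.zero_le _) hcon)
        have h3 := single_le_sum (hZ3 η) (mem_univ a)
        have h4 : ∏ x, g a (η x) = (1 / 2) ^ (t a).card := by
          simp only [g, t]
          rw [prod_ite, prod_const, prod_const_one, mul_one]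
        have h5 : (2 : ℝ) ^ M * (1 / 2) ^ (t a).card < 1 := by
          simp only [Z] at hZ
          rw [← h4]; linarith
        rw [one_div, inv_pow, ← div_eq_mul_inv, div_lt_one (by positivity),
          pow_lt_pow_iff_right₀ (by norm_num)] at h5
        have h6 : (t a).card ≤ (A'.biUnion t).card := card_le_card (subset_biUnion_of_mem t ha)
        omega
      set m : ℝ := (A'.card : ℝ) with hm
      have hm1 : 16 * R ^ 2 ≤ m := hM.trans (by rw [hm]; exact_mod_cast hmM.le)
      have hm0 : 0 < m := lt_of_lt_of_le (by positivity) hm1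
      have he : ∑ a, e a η ^ 2 ≤ n ^ 2 * R ^ 2 := by
        rw [← div_le_one (by positivity)]
        simp only [Z] at hZ; linarith
      have hΔ : ∑ a, ∑ b, Δ a b η ^ 2 ≤ n ^ 4 / 100 := by
        rw [← div_le_one (by positivity)]
        simp only [Z] at hZ; linarith
      let f : X → ℝ := fun x => ∑ a ∈ A', kap p N Y a (η x)
      have hf1 : ∑ x, f x = m * n + ∑ a ∈ A', e a η := by
        simp only [f, e, sum_sub_distrib, sum_const, card_univ, nsmul_eq_mul, mul_one]
        rw [sum_comm]; ring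
      have hf2 : ∑ x, f x ^ 2 = n * (∑ a ∈ A', ∑ b ∈ A', Γ a b) +
          ∑ a ∈ A', ∑ b ∈ A', Δ a b η := by
        simp only [f, Δ, sq, sum_mul_sum, sum_sub_distrib, sum_const, card_univ, nsmul_eq_mul]
        rw [sum_comm]
        simp only [sum_comm (s := (univ : Finset X)) (t := A'), mul_sum]
        ring
      have hf3 : (∑ x, f x) ^ 2 ≤ m * ∑ x, f x ^ 2 := by
        have e1 : ∑ x, f x = ∑ x ∈ A'.biUnion t, f x := by
          symm
          apply sum_subset (subset_univ _)
          intro x _ hx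
          apply sum_eq_zero
          intro a ha
          apply kap_eq_zero
          intro h
          exact hx (mem_biUnion.mpr ⟨a, ha, by simpa [t] using h⟩)
        rw [e1]
        refine sq_sum_le_card_mul_sum_sq.trans ?_
        apply mul_le_mul (by rw [hm]; exact_mod_cast hcon.le) _ (by positivity) hm0.le
        exact sum_le_sum_of_subset_of_nonneg (subset_univ _) (fun _ _ _ => sq_nonneg _)
      have hΓ : ∑ a ∈ A', ∑ b ∈ A', Γ a b ≤ m * (n / 10) := by
        refine le_trans (le_of_eq ?_) (hgram A')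
        simp only [Γ, sq, sum_mul_sum]
        simp only [mul_sum]
        simp only [sum_comm (s := (univ : Finset (Finset U))) (t := A')]
      have he2 : -(m * n / 4) ≤ ∑ a ∈ A', e a η := by
        refine (abs_le_of_sq_le_sq' ?_ (by positivity)).1
        refine sq_sum_le_card_mul_sum_sq.trans ?_
        have : ∑ a ∈ A', e a η ^ 2 ≤ ∑ a, e a η ^ 2 :=
          sum_le_sum_of_subset_of_nonneg (subset_univ _) (fun _ _ _ => sq_nonneg _)
        have h7 : m * ∑ a ∈ A', e a η ^ 2 ≤ m * (n ^ 2 * R ^ 2) :=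
          mul_le_mul_of_nonneg_left (this.trans he) hm0.le
        have h8 : m * n ^ 2 * (16 * R ^ 2) ≤ m * n ^ 2 * m :=
          mul_le_mul_of_nonneg_left hm1 (by positivity)
        nlinarith
      have hΔ2 : ∑ a ∈ A', ∑ b ∈ A', Δ a b η ≤ m * n ^ 2 / 10 := by
        apply le_of_sq_le_sq _ (by positivity)
        rw [← sum_product']
        refine sq_sum_le_card_mul_sum_sq.trans ?_
        have : ∑ z ∈ A' ×ˢ A', Δ z.1 z.2 η ^ 2 ≤ ∑ a, ∑ b, Δ a b η ^ 2 := by
          rw [← Fintype.sum_prod_type']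
          exact sum_le_sum_of_subset_of_nonneg (subset_univ _) (fun _ _ _ => sq_nonneg _)
        rw [card_product, Nat.cast_mul, ← hm]
        have h7 := mul_le_mul_of_nonneg_left (this.trans hΔ) (mul_self_nonneg m)
        nlinarith
      have h9 : (3 / 4 * (m * n)) ^ 2 ≤ (∑ x, f x) ^ 2 :=
        pow_le_pow_left₀ (by positivity) (by linarith) 2
      have h10 : ∑ x, f x ^ 2 ≤ m * n ^ 2 / 5 := by
        have := mul_le_mul_of_nonneg_left hΓ hn0.le
        nlinarith
      have h11 := mul_le_mul_of_nonneg_left h10 hm0.le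
      have h12 : 0 < (m * n) ^ 2 := by positivity
      nlinarith
    obtain ⟨f, hf1, hf2⟩ := (all_card_le_biUnion_card_iff_exists_injective t).mp hall
    exact ⟨f, hf1, fun a => by simpa [t] using hf2 a⟩
  · simp only [Z, mul_add, sum_add_distrib]
    have hE1 : ∑ η : X → Finset U, (∏ x, wt p (η x)) * ((∑ a, e a η ^ 2) / (n ^ 2 * R ^ 2)) ≤
        1 / 8 := by
      simp only [← mul_div_assoc, ← sum_div, mul_sum]
      rw [sum_comm, div_le_iff₀ (by positivity)]
      have : ∀ a, ∑ η : X → Finset U, (∏ x, wt p (η x)) * e a η ^ 2 ≤ n * R ^ 2 := by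
        intro a
        simp only [e]
        rw [pi_expect_sq_sum (wt p) (sum_wt p) univ (fun _ S => kap p N Y a S - 1) (by
          intro x _
          simp only [mul_sub, sum_sub_distrib, kap_mean hp0.ne', mul_one, sum_wt, sub_self])]
        rw [sum_const, card_univ, nsmul_eq_mul]
        exact mul_le_mul_of_nonneg_left
          (var_le _ hw0 (sum_wt p) _ 1 R (kap_mean hp0.ne' N Y a) (hκ a)) hn0.le
      refine (sum_le_sum (fun a _ => this a)).trans ?_
      rw [sum_const, card_univ, nsmul_eq_mul]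
      have : 0 ≤ n * R ^ 2 := by positivity
      nlinarith
    have hE2 : ∑ η : X → Finset U, (∏ x, wt p (η x)) *
        ((∑ a, ∑ b, Δ a b η ^ 2) / (n ^ 4 / 100)) ≤ 1 / 8 := by
      simp only [← mul_div_assoc, ← sum_div, mul_sum]
      rw [sum_comm, div_le_iff₀ (by positivity)]
      have : ∀ a, ∑ η : X → Finset U, ∑ b, (∏ x, wt p (η x)) * Δ a b η ^ 2 ≤
          Fintype.card A * (n * (R * R) ^ 2) := by
        intro a
        rw [sum_comm, ← card_univ, ← nsmul_eq_mul, ← sum_const]
        apply sum_le_sum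
        intro b _
        simp only [Δ]
        rw [pi_expect_sq_sum (wt p) (sum_wt p) univ
          (fun _ S => kap p N Y a S * kap p N Y b S - Γ a b) (by
          intro x _
          simp only [mul_sub, sum_sub_distrib, kap_corr hp0.ne', ← sum_mul, sum_wt, one_mul, Γ,
            sub_self])]
        rw [sum_const, card_univ, nsmul_eq_mul]
        refine mul_le_mul_of_nonneg_left
          (var_le _ hw0 (sum_wt p) _ _ (R * R) (kap_corr hp0.ne' N Y a b) ?_) hn0.le
        intro S
        rw [abs_mul]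
        exact mul_le_mul (hκ a S) (hκ b S) (abs_nonneg _) hR0.le
      refine (sum_le_sum (fun a _ => this a)).trans ?_
      rw [sum_const, card_univ, nsmul_eq_mul]
      have h1 : (Fintype.card A : ℝ) * Fintype.card A ≤ (n / 25) * (n / 25) :=
        mul_le_mul (by linarith) (by linarith) hA0 (by positivity)
      have h2 : n * (R * R) ^ 2 ≤ n * (n / 2) :=
        mul_le_mul_of_nonneg_left (by nlinarith) hn0.le
      calc (Fintype.card A : ℝ) * (Fintype.card A * (n * (R * R) ^ 2))
          = (Fintype.card A * Fintype.card A) * (n * (R * R) ^ 2) := by ring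
        _ ≤ ((n / 25) * (n / 25)) * (n * (n / 2)) :=
          mul_le_mul h1 h2 (by positivity) (by positivity)
        _ ≤ _ := by
          have : 0 ≤ n ^ 4 := by positivity
          nlinarith
    have hE3 : ∑ η : X → Finset U, (∏ x, wt p (η x)) * (∑ a, 2 ^ M * ∏ x, g a (η x)) ≤
        1 / 8 := by
      refine le_trans ?_ hM2
      simp only [mul_sum]
      rw [sum_comm, mul_assoc, ← card_univ, ← nsmul_eq_mul, ← sum_const]
      apply sum_le_sum
      intro a _
      simp only [mul_left_comm (∏ x, wt p _) ((2 : ℝ) ^ M)]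
      rw [← mul_sum, pi_expect_prod (wt p) (fun _ S => g a S), prod_const, card_univ]
      apply mul_le_mul_of_nonneg_left _ (by positivity)
      apply pow_le_pow_left₀ (sum_nonneg (fun S _ => mul_nonneg (hw0 S) (hg0 a S)))
      have h1 : ∀ S, wt p S * g a S =
          wt p S - 1 / 2 * (wt p S * (if N a ∩ Y a ⊆ S then 1 else 0)) := by
        intro S
        simp only [g]
        split_ifs <;> ring
      simp only [h1, sum_sub_distrib, ← mul_sum, sum_wt, wt_superset]
      have h2 : p ^ (N a).card ≤ p ^ (N a ∩ Y a).card :=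
        pow_le_pow_of_le_one hp0.le hp1 (card_le_card inter_subset_left)
      have h3 : 1 / R ≤ p ^ (N a).card := by
        have h4 := hR a
        rw [div_pow, div_le_iff₀ (by positivity)] at h4
        have h5 : (1 : ℝ) ≤ 2 ^ (N a).card := one_le_pow₀ (by norm_num)
        rw [div_le_iff₀ hR0]
        linarith
      have h4 : 1 / (2 * R) = 1 / 2 * (1 / R) := by field_simp
      rw [h4]
      linarith
    linarith

open Classical in
theorem hub_abstract {X : Type} [Fintype X] [DecidableEq X] {p R : ℝ} (hp0 : 0 < p) (hp1 : p ≤ 1)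
    (N : A → Finset U) (hR : ∀ a, (2 / p) ^ (N a).card ≤ R) (hR1 : 3 ≤ R)
    (hA : 25 * Fintype.card A ≤ Fintype.card X) (hX : 2 * R ^ 4 ≤ Fintype.card X)
    (M : ℕ) (hM : 16 * R ^ 2 ≤ M)
    (hM2 : Fintype.card A * 2 ^ M * (1 - 1 / (2 * R)) ^ Fintype.card X ≤ 1 / 8)
    (hlam : ∀ J : Finset U, ((1 - p) / p) ^ J.card *
      ((univ.filter (fun a => J ⊆ N a)).card : ℝ) ≤ (Fintype.card X : ℝ) / 20) :
    ∃ Y : A → Finset U, ∀ Y' : A → Finset U, (Y' = Y ∨ Y' = fun a => (Y a)ᶜ) →
    ∑ η ∈ univ.filter (fun η : X → Finset U =>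
      ¬ ∃ f : A → X, Function.Injective f ∧ ∀ a, N a ∩ Y' a ⊆ η (f a)),
        ∏ x, wt p (η x) ≤ 1 / 2 := by
  have hθ : 0 ≤ (1 - p) / p := div_nonneg (by linarith) hp0.le
  obtain ⟨Y, hY⟩ := exists_signs N ((1 - p) / p) R hθ (by
    intro a
    refine le_trans (pow_le_pow_left₀ (by positivity) ?_ _) (hR a)
    rw [show 1 + (1 - p) / p = 1 / p by field_simp; ring]
    gcongr; norm_num)
  set n : ℝ := (Fintype.card X : ℝ) with hn
  have hn0 : 0 < n := lt_of_lt_of_le (by positivity) hX
  have hAn : 25 * (Fintype.card A : ℝ) ≤ n := by rw [hn]; exact_mod_cast hA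
  have hgram : ∀ A' : Finset A, ∑ J : Finset U, ((1 - p) / p) ^ J.card *
      (∑ a ∈ A', sgn N Y J a) ^ 2 ≤ (A'.card : ℝ) * (n / 10) := by
    intro A'
    have := gram_bound (fun J : Finset U => ((1 - p) / p) ^ J.card) (fun J => pow_nonneg hθ _)
      (sgn N Y) (n / 20) (n / 20) (by positivity) (by positivity) (by
        intro J
        simp only [sgn_mul_self]
        rw [← sum_filter, sum_const, nsmul_eq_mul, mul_one]
        exact hlam J) (by
        refine hY.trans ?_
        have h1 : (Fintype.card A : ℝ) * R ^ 2 ≤ n / 25 * R ^ 2 :=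
          mul_le_mul_of_nonneg_right (by linarith) (by positivity)
        have h2 : 16 * R ^ 2 ≤ n := by
          have : 9 ≤ R ^ 2 := by nlinarith
          nlinarith
        nlinarith) A'
    linarith
  refine ⟨Y, ?_⟩
  rintro Y' (rfl | rfl)
  · exact hall_prob hp0 hp1 N Y' hR (by linarith) hA hX M hM hM2 hgram
  · apply hall_prob hp0 hp1 N _ hR (by linarith) hA hX M hM hM2
    intro A'
    refine le_trans (le_of_eq ?_) (hgram A')
    apply sum_congr rfl
    intro J _
    simp only [sgn_compl, ← mul_sum, mul_pow, ← pow_mul]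
    rw [mul_comm J.card 2, pow_mul]
    norm_num

end Hub

end Crest.Agent.R52
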