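import Mathlib
import Crest.Agent.R52.Prob

/-!
A signed second-moment lemma for copies of a set under a finite group action.
-/

set_option autoImplicit false

namespace Crest.Agent.R52

open Finset Pointwise

section HS

variable (Γ : Type) {E : Type} [Group Γ] [Fintype Γ] [MulAction Γ E] [Fintype E] [DecidableEq E]

open Classical in
/-- a random set contains a copy of `F` with probability at least one half -/
def Good (p : ℝ) (F : Finset E) : Prop :=
  1 / 2 ≤ ∑ G ∈ univ.filter (fun G : Finset E => ∃ γ : Γ, γ • F ⊆ G), wt p G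

/-- `H` is covered by at most `k` good pieces -/
def Cov (p : ℝ) (k : ℕ) (H : Finset E) : Prop :=
  ∃ L : Finset (Finset E), L.card ≤ k ∧ (∀ F ∈ L, Good Γ p F) ∧ ∀ e ∈ H, ∃ F ∈ L, e ∈ F

/-- the second-moment quantity -/
noncomputable def Phi (θ : ℝ) (H : Finset E) : ℝ :=
  ∑ γ : Γ, ∑ I ∈ H.powerset, if γ • I = I then θ ^ I.card else 0

open Classical in
/-- spreadness of the uniform distribution on the copies of `H` -/
def Spread (q : ℝ) (H : Finset E) : Prop :=
  ∀ I : Finset E, ((univ.filter (fun γ : Γ => I ⊆ γ • H)).card : ℝ) ≤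
    q ^ I.card * Fintype.card Γ

variable {Γ}

lemma Good.mono {p : ℝ} (hp0 : 0 ≤ p) (hp1 : p ≤ 1) {F F' : Finset E} (h : Good Γ p F)
    (hsub : F' ⊆ F) : Good Γ p F' := by
  classical
  unfold Good at h ⊢
  refine h.trans (sum_le_sum_of_subset_of_nonneg ?_ (fun G _ _ => wt_nonneg hp0 hp1 G))
  intro G hG
  simp only [mem_filter, mem_univ, true_and] at hG ⊢
  obtain ⟨γ, hγ⟩ := hG
  exact ⟨γ, (smul_finset_subset_smul_finset hsub).trans hγ⟩

lemma good_of_fail_le {p : ℝ} {F : Finset E} (P : Finset E → Prop) [DecidablePred P]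
    (hp0 : 0 ≤ p) (hp1 : p ≤ 1)
    (hP : ∀ G, ¬ P G → ∃ γ : Γ, γ • F ⊆ G)
    (h : ∑ G ∈ univ.filter P, wt p G ≤ 1 / 2) : Good Γ p F := by
  classical
  unfold Good
  have h1 := sum_filter_add_sum_filter_not univ P (wt p)
  rw [sum_wt] at h1
  have h2 : ∑ G ∈ univ.filter (fun G => ¬ P G), wt p G ≤
      ∑ G ∈ univ.filter (fun G : Finset E => ∃ γ : Γ, γ • F ⊆ G), wt p G := by
    apply sum_le_sum_of_subset_of_nonneg _ (fun G _ _ => wt_nonneg hp0 hp1 G)
    intro G hG
    simp only [mem_filter, mem_univ, true_and] at hG ⊢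
    exact hP G hG
  linarith

lemma Cov.mono {p : ℝ} {k k' : ℕ} {H H' : Finset E} (h : Cov Γ p k H) (hk : k ≤ k')
    (hH : H' ⊆ H) : Cov Γ p k' H' := by
  obtain ⟨L, h1, h2, h3⟩ := h
  exact ⟨L, h1.trans hk, h2, fun e he => h3 e (hH he)⟩

lemma Cov.union {p : ℝ} {k k' : ℕ} {H H' : Finset E} (h : Cov Γ p k H) (h' : Cov Γ p k' H') :
    Cov Γ p (k + k') (H ∪ H') := by
  obtain ⟨L, h1, h2, h3⟩ := h
  obtain ⟨L', h1', h2', h3'⟩ := h'
  refine ⟨L ∪ L', (card_union_le _ _).trans (add_le_add h1 h1'), ?_, ?_⟩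
  · intro F hF
    rcases mem_union.mp hF with h | h
    · exact h2 F h
    · exact h2' F h
  · intro e he
    rcases mem_union.mp he with h | h
    · obtain ⟨F, hF, he⟩ := h3 e h
      exact ⟨F, mem_union_left _ hF, he⟩
    · obtain ⟨F, hF, he⟩ := h3' e h
      exact ⟨F, mem_union_right _ hF, he⟩

lemma Cov.biUnion {ι : Type} {p : ℝ} {k : ℕ} (s : Finset ι) (f : ι → Finset E) (H : Finset E)
    (h : ∀ i ∈ s, Cov Γ p k (f i)) (hH : ∀ e ∈ H, ∃ i ∈ s, e ∈ f i) :
    Cov Γ p (s.card * k) H := by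
  classical
  choose! L h1 h2 h3 using h
  refine ⟨s.biUnion L, ?_, ?_, ?_⟩
  · refine card_biUnion_le.trans ?_
    rw [← smul_eq_mul, ← sum_const]
    exact sum_le_sum h1
  · intro F hF
    obtain ⟨i, hi, hF⟩ := mem_biUnion.mp hF
    exact h2 i hi F hF
  · intro e he
    obtain ⟨i, hi, hei⟩ := hH e he
    obtain ⟨F, hF, heF⟩ := h3 i hi e hei
    exact ⟨F, mem_biUnion.mpr ⟨i, hi, hF⟩, heF⟩

omit [Fintype E] in
lemma Spread.mono {q : ℝ} {H H' : Finset E} (h : Spread Γ q H) (hH : H' ⊆ H) :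
    Spread Γ q H' := by
  classical
  intro I
  refine le_trans ?_ (h I)
  apply Nat.cast_le.mpr
  apply card_le_card
  intro γ hγ
  simp only [mem_filter, mem_univ, true_and] at hγ ⊢
  exact hγ.trans (smul_finset_subset_smul_finset hH)

theorem cov_two_of_phi {p : ℝ} (hp0 : 0 < p) (hp1 : p ≤ 1) (H : Finset E)
    (hΦ : Phi Γ ((1 - p) / p) H ≤ 5 / 4 * Fintype.card Γ) : Cov Γ p 2 H := by
  classical
  set N : ℝ := (Fintype.card Γ : ℝ) with hN
  have hN0 : 0 < N := by rw [hN]; exact_mod_cast Fintype.card_pos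
  let a : Γ → Finset E → Finset E → Finset E → ℝ := fun γ I Y G =>
    (∏ e ∈ I, psi (1 / 2) Y e) * ∏ x ∈ γ • I, psi p G x
  let T : Finset E → Finset E → ℝ := fun Y G => ∑ γ : Γ, ∑ I ∈ H.powerset, a γ I Y G
  have hTprod : ∀ Y G, T Y G = ∑ γ : Γ, ∏ e ∈ H, (1 + psi (1 / 2) Y e * psi p G (γ • e)) := by
    intro Y G
    apply sum_congr rfl
    intro γ _
    rw [prod_one_add]
    apply sum_congr rfl
    intro I _
    simp only [a]
    rw [prod_mul_distrib, smul_finset_def, prod_image (fun x _ y _ h => MulAction.injective γ h)]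
  have hmean : ∀ Y, ∑ G, wt p G * T Y G = N := by
    intro Y
    simp only [T, mul_sum]
    rw [sum_comm]
    have : ∀ γ : Γ, ∑ G, ∑ I ∈ H.powerset, wt p G * a γ I Y G = 1 := by
      intro γ
      rw [sum_comm, sum_eq_single ∅]
      · simp [a, sum_wt]
      · intro I _ hI
        simp only [a, mul_left_comm (wt p _)]
        rw [← mul_sum, psi_mean hp0.ne', if_neg (by simpa using hI), mul_zero]
      · simp
    simp [this, hN]
  have hsq : ∑ Y, wt (1 / 2) Y * ∑ G, wt p G * T Y G ^ 2 = N * Phi Γ ((1 - p) / p) H := by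
    have e1 : ∀ (γ δ : Γ) (I J : Finset E),
        ∑ Y, wt (1 / 2) Y * ∑ G, wt p G * (a γ I Y G * a δ J Y G) =
        if I = J then (if (δ⁻¹ * γ) • I = I then ((1 - p) / p) ^ I.card else 0) else 0 := by
      intro γ δ I J
      have : ∀ Y G : Finset E, wt p G * (a γ I Y G * a δ J Y G) =
          ((∏ e ∈ I, psi (1 / 2) Y e) * ∏ e ∈ J, psi (1 / 2) Y e) *
          (wt p G * ((∏ x ∈ γ • I, psi p G x) * ∏ x ∈ δ • J, psi p G x)) := by
        intro Y G
        simp only [a]; ring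
      simp only [this]
      simp only [← mul_sum, psi_orth hp0.ne']
      simp only [← mul_assoc (wt (1 / 2) _)]
      rw [← sum_mul]
      simp only [mul_assoc (wt (1 / 2) _)]
      rw [psi_orth (p := 1 / 2) (by norm_num)]
      by_cases hIJ : I = J
      · subst hIJ
        simp only [if_true, card_smul_finset]
        have : (δ⁻¹ * γ) • I = I ↔ γ • I = δ • I := by
          rw [mul_smul, inv_smul_eq_iff]
        simp only [this]
        norm_num
      · simp [hIJ]
    have e2 : ∀ Y G, T Y G ^ 2 = ∑ γ : Γ, ∑ δ : Γ, ∑ I ∈ H.powerset, ∑ J ∈ H.powerset,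
        a γ I Y G * a δ J Y G := by
      intro Y G
      simp only [T, sq, sum_mul_sum]
    have e3 : ∑ Y, wt (1 / 2) Y * ∑ G, wt p G * T Y G ^ 2 =
        ∑ γ : Γ, ∑ δ : Γ, ∑ I ∈ H.powerset, ∑ J ∈ H.powerset,
          ∑ Y, wt (1 / 2) Y * ∑ G, wt p G * (a γ I Y G * a δ J Y G) := by
      simp only [e2, mul_sum]
      rw [sum_comm]
      conv_rhs => 
        enter [2, γ, 2, δ, 2, I, 2, J]
        rw [sum_comm]
      simp only [← sum_product']
      apply sum_nbij' (fun z => (z.2.2.1, z.2.2.2.1, z.2.2.2.2.1, z.2.2.2.2.2, z.1, z.2.1))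
        (fun z => (z.2.2.2.2.1, z.2.2.2.2.2, z.1, z.2.1, z.2.2.1, z.2.2.2.1)) <;> simp
    rw [e3]
    simp only [e1, sum_ite_eq]
    rw [sum_comm]
    have e4 : ∀ δ : Γ, ∑ γ : Γ, ∑ I ∈ H.powerset, (if I ∈ H.powerset then
        (if (δ⁻¹ * γ) • I = I then ((1 - p) / p) ^ I.card else 0) else 0) =
        Phi Γ ((1 - p) / p) H := by
      intro δ
      unfold Phi
      apply Fintype.sum_equiv (Equiv.mulLeft δ⁻¹)
      intro γ
      apply sum_congr rfl
      intro I hI
      simp [hI]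
    simp only [e4, sum_const, card_univ, nsmul_eq_mul, hN]
  let V : Finset E → ℝ := fun Y => ∑ G, wt p G * ((T Y G - N) ^ 2 / N ^ 2)
  have hV : ∀ Y, V Y = (∑ G, wt p G * T Y G ^ 2) / N ^ 2 - 1 := by
    intro Y
    have : ∀ G, wt p G * ((T Y G - N) ^ 2 / N ^ 2) =
        wt p G * T Y G ^ 2 / N ^ 2 - 2 / N * (wt p G * T Y G) + wt p G := by
      intro G; field_simp; ring
    simp only [V, this, sum_add_distrib, sum_sub_distrib, ← mul_sum, ← sum_div, hmean, sum_wt]
    field_simp; ring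
  have hV0 : ∀ Y, 0 ≤ V Y := fun Y =>
    sum_nonneg (fun G _ => mul_nonneg (wt_nonneg hp0.le hp1 G) (by positivity))
  have hEV : ∑ Y, wt (1 / 2) Y * V Y ≤ 1 / 4 := by
    simp only [hV, mul_sub, sum_sub_distrib, mul_one, sum_wt, ← mul_div_assoc, ← sum_div, hsq]
    rw [sub_le_iff_le_add, div_le_iff₀ (by positivity)]
    nlinarith
  have hEV' : ∑ Y, wt (1 / 2) Y * V Yᶜ = ∑ Y, wt (1 / 2) Y * V Y := by
    apply Fintype.sum_equiv (⟨compl, compl, compl_compl, compl_compl⟩ : Finset E ≃ Finset E)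
    intro Y
    simp only [Equiv.coe_fn_mk, wt_half_compl]
  obtain ⟨Y, hY⟩ := exists_le_expect (wt (1 / 2 : ℝ))
    (fun Y : Finset E => wt_nonneg (by norm_num) (by norm_num) Y) (sum_wt _)
    (fun Y => V Y + V Yᶜ) (1 / 2) (by
      simp only [mul_add, sum_add_distrib]
      linarith)
  have hgood : ∀ Y, V Y ≤ 1 / 2 → Good Γ p (H ∩ Y) := by
    intro Y hY
    apply good_of_fail_le (fun G => ¬ ∃ γ : Γ, γ • (H ∩ Y) ⊆ G) hp0.le hp1
      (fun G hG => not_not.mp hG)
    refine le_trans (markov_le (wt p) (wt_nonneg hp0.le hp1)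
      (fun G => (T Y G - N) ^ 2 / N ^ 2) (fun G => by positivity) _ ?_) hY
    intro G hG
    have : T Y G = 0 := by
      rw [hTprod]
      apply sum_eq_zero
      intro γ _
      have h1 : ¬ γ • (H ∩ Y) ⊆ G := fun h => hG ⟨γ, h⟩
      obtain ⟨x, hx, hxG⟩ := not_subset.mp h1
      obtain ⟨e, he, rfl⟩ := mem_smul_finset.mp hx
      rw [mem_inter] at he
      apply prod_eq_zero he.1
      simp only [psi, he.2, hxG, if_true, if_false]
      norm_num
    rw [this]
    apply le_of_eq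
    field_simp
    ring
  refine ⟨{H ∩ Y, H ∩ Yᶜ}, card_le_two, ?_, ?_⟩
  · intro F hF
    simp only [mem_insert, mem_singleton] at hF
    rcases hF with rfl | rfl
    · exact hgood Y (by linarith [hV0 Yᶜ])
    · exact hgood Yᶜ (by linarith [hV0 Y])
  · intro e he
    by_cases h : e ∈ Y
    · exact ⟨H ∩ Y, by simp, by simp [he, h]⟩
    · exact ⟨H ∩ Yᶜ, by simp, by simp [he, h]⟩

omit [Fintype E] in
/-- bounding the second-moment quantity through orbit representatives -/
lemma phi_le_of_reps {θ q : ℝ} (hθ : 0 ≤ θ) (H : Finset E) (hs : Spread Γ q H)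
    (C : Finset (Finset E)) (hC : ∀ I ⊆ H, ∃ δ : Γ, δ • I ∈ C) :
    Phi Γ θ H ≤ (∑ c ∈ C, (θ * q) ^ c.card) * Fintype.card Γ := by
  classical
  choose! δ hδ using hC
  unfold Phi
  rw [sum_comm]
  have e1 : ∀ I ∈ H.powerset, ∑ γ : Γ, (if γ • I = I then θ ^ I.card else 0) =
      ∑ γ : Γ, ∑ c ∈ C, (if γ • I = c ∧ δ I • I = c then θ ^ c.card else 0) := by
    intro I hI
    apply Fintype.sum_equiv (Equiv.mulLeft (δ I))
    intro γ
    rw [sum_eq_single (δ I • I)]
    · simp [mul_smul]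
    · intro c _ hc
      rw [if_neg (fun h => hc h.2.symm)]
    · intro h
      exact absurd (hδ I (mem_powerset.mp hI)) h
  rw [sum_congr rfl e1, sum_comm, sum_mul]
  simp_rw [sum_comm (s := H.powerset) (t := C)]
  rw [sum_comm]
  apply sum_le_sum
  intro c _
  have e2 : ∀ γ : Γ, ∑ I ∈ H.powerset, (if γ • I = c ∧ δ I • I = c then θ ^ c.card else 0) ≤
      if c ⊆ γ • H then θ ^ c.card else 0 := by
    intro γ
    have h1 : ∀ I ∈ H.powerset, (if γ • I = c ∧ δ I • I = c then θ ^ c.card else 0) ≤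
        if I = γ⁻¹ • c then θ ^ c.card else 0 := by
      intro I _
      split_ifs with h1 h2
      · exact le_rfl
      · exact absurd (by rw [← h1.1, inv_smul_smul]) h2
      · positivity
      · exact le_rfl
    refine (sum_le_sum h1).trans (le_of_eq ?_)
    rw [sum_ite_eq']
    simp only [mem_powerset, subset_smul_finset_iff]
  refine (sum_le_sum (fun γ _ => e2 γ)).trans ?_
  rw [← sum_filter, sum_const, nsmul_eq_mul, mul_pow, mul_assoc, mul_comm]
  exact mul_le_mul_of_nonneg_left (hs c) (by positivity)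

omit [Fintype E] [Fintype Γ] in
/-- bounding one term of the second-moment quantity through the largest invariant part -/
lemma exists_inv_part {p : ℝ} (hp0 : 0 < p) (hp1 : p ≤ 1) (H : Finset E) (γ : Γ) :
    ∃ I ⊆ H, (∀ e ∈ I, γ • e ∈ I) ∧
      ∑ J ∈ H.powerset, (if γ • J = J then ((1 - p) / p) ^ J.card else 0) ≤ (1 / p) ^ I.card := by
  classical
  have hθ : 0 ≤ (1 - p) / p := div_nonneg (by linarith) hp0.le
  refine ⟨H.filter (fun e => ∀ j : ℕ, γ ^ j • e ∈ H), filter_subset _ _, ?_, ?_⟩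
  · intro e he
    simp only [mem_filter] at he ⊢
    refine ⟨by simpa using he.2 1, fun j => ?_⟩
    rw [smul_smul, ← pow_succ]
    exact he.2 _
  · rw [← sum_filter]
    have h1 : (1 / p) ^ (H.filter (fun e => ∀ j : ℕ, γ ^ j • e ∈ H)).card =
        ∑ J ∈ (H.filter (fun e => ∀ j : ℕ, γ ^ j • e ∈ H)).powerset, ((1 - p) / p) ^ J.card := by
      rw [← prod_const, show (1 / p) = 1 + (1 - p) / p by field_simp; ring, prod_one_add]
      simp only [prod_const]
    rw [h1]
    apply sum_le_sum_of_subset_of_nonneg _ (fun J _ _ => pow_nonneg hθ _)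
    intro J hJ
    simp only [mem_filter, mem_powerset] at hJ ⊢
    intro e he
    rw [mem_filter]
    refine ⟨hJ.1 he, fun j => hJ.1 ?_⟩
    induction j with
    | zero => simpa using he
    | succ j ih =>
      rw [pow_succ', mul_smul, ← hJ.2]
      exact smul_mem_smul_finset ih

end HS

end Crest.Agent.R52
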