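import Mathlib
import Crest.Agent.R52.HS

/-!
Counting permutations, the action on unordered pairs, and consequences of spreadness.
-/

set_option autoImplicit false

namespace Crest.Agent.R52

open Finset Pointwise Equiv

/-- permutations act on unordered pairs -/
scoped instance permSym2 {V : Type} : MulAction (Perm V) (Sym2 V) where
  smul γ e := Sym2.map γ e
  one_smul e := by
    change Sym2.map (1 : Perm V) e = e
    simp
  mul_smul γ δ e := by
    change Sym2.map (γ * δ) e = Sym2.map γ (Sym2.map δ e)
    rw [Sym2.map_map]; rfl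

@[simp] lemma smul_mk {V : Type} (γ : Perm V) (a b : V) : γ • s(a, b) = s(γ a, γ b) := rfl

lemma smul_sym2_def {V : Type} (γ : Perm V) (e : Sym2 V) : γ • e = Sym2.map γ e := rfl

section PermCount

variable {V : Type} [Fintype V] [DecidableEq V]

lemma card_fix (W : Finset V) :
    (univ.filter (fun γ : Perm V => ∀ w ∈ W, γ w = w)).card =
      (Fintype.card V - W.card).factorial := by
  have e := Perm.subtypeEquivSubtypePerm (fun a : V => a ∉ W)
  have h1 := Fintype.card_congr e
  rw [Fintype.card_perm, Fintype.card_subtype_compl, Fintype.card_coe, Fintype.card_subtype] at h1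
  rw [h1]
  congr 1
  ext γ
  simp

lemma card_agree_le (W : Finset V) (s : Finset (Perm V))
    (hs : ∀ γ ∈ s, ∀ δ ∈ s, ∀ w ∈ W, γ w = δ w) :
    s.card ≤ (Fintype.card V - W.card).factorial := by
  rcases s.eq_empty_or_nonempty with rfl | ⟨γ0, h0⟩
  · simp
  rw [← card_fix W]
  apply card_le_card_of_injOn (fun γ => γ0⁻¹ * γ)
  · intro γ hγ
    simp only [coe_filter, mem_univ, true_and, Set.mem_ofPred_eq]
    intro w hw
    rw [Perm.mul_apply, hs γ hγ γ0 h0 w hw]
    simp
  · intro a _ b _ h
    exact mul_left_cancel h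

lemma pow_mul_factorial_sub_le (v n : ℕ) (h : v ≤ n) :
    (n : ℝ) ^ v * (n - v).factorial ≤ 3 ^ v * n.factorial := by
  induction n, h using Nat.le_induction with
  | base =>
    have h1 := Real.pow_div_factorial_le_exp (v : ℝ) (Nat.cast_nonneg v) v
    rw [div_le_iff₀ (by positivity)] at h1
    have h2 : Real.exp v ≤ 3 ^ v := by
      rw [← mul_one (v : ℝ), Real.exp_nat_mul]
      exact pow_le_pow_left₀ (Real.exp_pos _).le (Real.exp_one_lt_d9.le.trans (by norm_num)) v
    simp only [Nat.sub_self, Nat.factorial_zero, Nat.cast_one, mul_one]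
    exact h1.trans (mul_le_mul_of_nonneg_right h2 (by positivity))
  | succ n hn ih =>
    rw [Nat.succ_sub hn, Nat.factorial_succ, Nat.factorial_succ]
    push_cast [Nat.cast_sub hn]
    have hn1 : (0 : ℝ) < n + 1 := by positivity
    have h1 := one_add_mul_le_pow (a := -(1 / ((n : ℝ) + 1)))
      (by have : 1 / ((n : ℝ) + 1) ≤ 1 := by
            rw [div_le_one hn1]; linarith [Nat.cast_nonneg (α := ℝ) n]
          linarith) v
    have h2 : (1 + -(1 / ((n : ℝ) + 1))) = n / (n + 1) := by field_simp; ring
    have h3 : (1 + (v : ℝ) * -(1 / ((n : ℝ) + 1))) = (n - v + 1) / (n + 1) := by field_simp; ring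
    rw [h2, h3, div_pow, div_le_div_iff₀ hn1 (by positivity)] at h1
    have h4 : (0 : ℝ) ≤ (n - v).factorial := by positivity
    calc ((n : ℝ) + 1) ^ v * ((n - v + 1) * (n - v).factorial)
        = ((n - v + 1) * (n + 1) ^ v) * (n - v).factorial := by ring
      _ ≤ (n ^ v * (n + 1)) * (n - v).factorial := mul_le_mul_of_nonneg_right h1 h4
      _ = (n + 1) * (n ^ v * (n - v).factorial) := by ring
      _ ≤ (n + 1) * (3 ^ v * n.factorial) := mul_le_mul_of_nonneg_left ih hn1.le
      _ = _ := by ring

lemma factorial_le_pow_mul (j n : ℕ) (h : j ≤ n) :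
    n.factorial ≤ n ^ j * (n - j).factorial := by
  rw [← Nat.factorial_mul_descFactorial h, mul_comm]
  exact Nat.mul_le_mul_right _ (Nat.descFactorial_le_pow n j)

lemma pow_div_factorial_le_three (x : ℕ) (k : ℕ) : (x : ℝ) ^ k / k.factorial ≤ 3 ^ x := by
  refine (Real.pow_div_factorial_le_exp (x : ℝ) (Nat.cast_nonneg x) k).trans ?_
  rw [← mul_one (x : ℝ), Real.exp_nat_mul]
  exact pow_le_pow_left₀ (Real.exp_pos _).le (Real.exp_one_lt_d9.le.trans (by norm_num)) x

lemma card_stab_ge (J M : Finset V) :
    (Fintype.card V - J.card).factorial ≤ (Fintype.card V).choose M.card *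
      (univ.filter (fun γ : Perm V => (∀ w ∈ J, γ w = w) ∧ M.image γ = M)).card := by
  rw [← card_fix J, mul_comm, ← card_univ, ← card_powersetCard]
  apply card_le_mul_card_image_of_maps_to (f := fun γ : Perm V => M.image γ)
  · intro γ _
    rw [mem_powersetCard]
    exact ⟨subset_univ _, card_image_of_injective _ γ.injective⟩
  · intro M' _
    rcases ((univ.filter (fun γ : Perm V => ∀ w ∈ J, γ w = w)).filter
      (fun γ : Perm V => M.image γ = M')).eq_empty_or_nonempty with h | ⟨γ0, h0⟩
    · simp [h]
    simp only [mem_filter, mem_univ, true_and] at h0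
    apply card_le_card_of_injOn (fun γ => γ0⁻¹ * γ)
    · intro γ hγ
      simp only [coe_filter, mem_filter, mem_univ, true_and, Set.mem_ofPred_eq] at hγ ⊢
      constructor
      · intro w hw
        rw [Perm.mul_apply, hγ.1 w hw, Perm.inv_eq_iff_eq, h0.1 w hw]
      · rw [Perm.coe_mul, ← image_image, hγ.2, ← h0.2, image_image]
        simp
    · intro a _ b _ h
      exact mul_left_cancel h

/-- a spread graph has few edges on every vertex set -/
lemma spread_density {q : ℝ} {H : Finset (Sym2 V)} (hs : Spread (Perm V) q H)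
    (J : Finset (Sym2 V)) (hJ : J ⊆ H) (W : Finset V) (hW : ∀ e ∈ J, ∀ v ∈ e, v ∈ W) :
    1 ≤ q ^ J.card * (Fintype.card V : ℝ) ^ W.card := by
  classical
  have h1 := hs J
  have h2 : (univ.filter (fun γ : Perm V => ∀ w ∈ W, γ w = w)) ⊆
      univ.filter (fun γ : Perm V => J ⊆ γ • H) := by
    intro γ hγ
    simp only [mem_filter, mem_univ, true_and] at hγ ⊢
    intro e he
    have : γ • e = e := by
      induction e using Sym2.ind with
      | h a b =>
        rw [smul_mk, hγ a (hW _ he a (by simp)), hγ b (hW _ he b (by simp))]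
    rw [← this]
    exact smul_mem_smul_finset (hJ he)
  have h3 := card_le_card h2
  rw [card_fix] at h3
  have h4 := factorial_le_pow_mul W.card (Fintype.card V) (card_le_univ W)
  rw [Fintype.card_perm] at h1
  have h5 : ((Fintype.card V).factorial : ℝ) ≤ (Fintype.card V : ℝ) ^ W.card *
      (q ^ J.card * (Fintype.card V).factorial) := by
    refine le_trans ?_ (mul_le_mul_of_nonneg_left h1 (by positivity))
    exact_mod_cast h4.trans (Nat.mul_le_mul_left _ (by convert h3))
  have h6 : (0 : ℝ) < (Fintype.card V).factorial := by positivity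
  rw [← mul_assoc] at h5
  rw [mul_comm]
  exact le_of_mul_le_mul_right (by linarith) h6

/-- a spread graph has few common neighbours -/
lemma spread_codegree {q : ℝ} {H : Finset (Sym2 V)} (hs : Spread (Perm V) q H)
    (J M : Finset V) (hJM : Disjoint J M) (hH : ∀ a ∈ M, ∀ u ∈ J, s(a, u) ∈ H) :
    (M.card : ℝ) ^ M.card ≤
      (3 * Fintype.card V * q ^ J.card) ^ M.card * (Fintype.card V : ℝ) ^ J.card := by
  classical
  set n := Fintype.card V with hn
  let I : Finset (Sym2 V) := (M ×ˢ J).image (fun z => s(z.1, z.2))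
  have hI : I.card = J.card * M.card := by
    rw [card_image_of_injOn, card_product, mul_comm]
    rintro ⟨a, u⟩ h1 ⟨b, v⟩ h2 h
    simp only [coe_product, Set.mem_prod, mem_coe] at h1 h2
    simp only [Sym2.eq_iff] at h
    rcases h with ⟨rfl, rfl⟩ | ⟨rfl, rfl⟩
    · rfl
    · exact absurd h1.1 (disjoint_left.mp hJM h2.2)
  have h1 := hs I
  have h2 : (univ.filter (fun γ : Perm V => (∀ w ∈ J, γ w = w) ∧ M.image γ = M)) ⊆
      univ.filter (fun γ : Perm V => I ⊆ γ • H) := by
    intro γ hγ
    simp only [mem_filter, mem_univ, true_and] at hγ ⊢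
    intro e he
    obtain ⟨⟨a, u⟩, hz, rfl⟩ := mem_image.mp he
    rw [mem_product] at hz
    have ha : a ∈ M.image γ := by rw [hγ.2]; exact hz.1
    obtain ⟨b, hb, rfl⟩ := mem_image.mp ha
    have : s(γ b, u) = γ • s(b, u) := by rw [smul_mk, hγ.1 u hz.2]
    rw [this]
    exact smul_mem_smul_finset (hH b hb u hz.2)
  have h3 := card_le_card h2
  have h4 := factorial_le_pow_mul J.card n (card_le_univ J)
  have h5 := card_stab_ge J M
  rw [Fintype.card_perm, hI, ← hn] at h1
  have h6 : (n.factorial : ℝ) ≤ (n : ℝ) ^ J.card * (n.choose M.card *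
      (q ^ (J.card * M.card) * n.factorial)) := by
    refine le_trans ?_ (mul_le_mul_of_nonneg_left (mul_le_mul_of_nonneg_left h1 (by positivity))
      (by positivity))
    exact_mod_cast h4.trans (Nat.mul_le_mul_left _ (h5.trans (Nat.mul_le_mul_left _
      (by convert h3))))
  have h7 : (0 : ℝ) < n.factorial := by positivity
  have h8 : 1 ≤ (n : ℝ) ^ J.card * (n.choose M.card * q ^ (J.card * M.card)) := by
    apply le_of_mul_le_mul_right _ h7
    linarith
  have hq : 0 ≤ q ^ (J.card * M.card) := by
    by_contra hneg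
    push Not at hneg
    have : (n : ℝ) ^ J.card * (n.choose M.card * q ^ (J.card * M.card)) ≤ 0 :=
      mul_nonpos_of_nonneg_of_nonpos (by positivity)
        (mul_nonpos_of_nonneg_of_nonpos (by positivity) hneg.le)
    linarith
  have h9 : (n.choose M.card : ℝ) ≤ (n : ℝ) ^ M.card / M.card.factorial :=
    Nat.choose_le_pow_div _ _
  have h10 := pow_div_factorial_le_three M.card M.card
  have h11 : (M.card : ℝ) ^ M.card * n.choose M.card ≤ 3 ^ M.card * (n : ℝ) ^ M.card := by
    calc (M.card : ℝ) ^ M.card * n.choose M.card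
        ≤ (M.card : ℝ) ^ M.card * ((n : ℝ) ^ M.card / M.card.factorial) :=
          mul_le_mul_of_nonneg_left h9 (by positivity)
      _ = (M.card : ℝ) ^ M.card / M.card.factorial * (n : ℝ) ^ M.card := by ring
      _ ≤ _ := mul_le_mul_of_nonneg_right h10 (by positivity)
  calc (M.card : ℝ) ^ M.card
      ≤ (M.card : ℝ) ^ M.card * ((n : ℝ) ^ J.card * (n.choose M.card * q ^ (J.card * M.card))) :=
        le_mul_of_one_le_right (by positivity) h8
    _ = ((M.card : ℝ) ^ M.card * n.choose M.card) *
        ((n : ℝ) ^ J.card * q ^ (J.card * M.card)) := by ring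
    _ ≤ (3 ^ M.card * (n : ℝ) ^ M.card) * ((n : ℝ) ^ J.card * q ^ (J.card * M.card)) :=
        mul_le_mul_of_nonneg_right h11 (by positivity)
    _ = _ := by rw [mul_pow, mul_pow, ← pow_mul]; ring

end PermCount

end Crest.Agent.R52
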