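import Mathlib
import Crest.Agent.R52.Hub
import Crest.Agent.R52.PermCount

/-!
Bipartite pieces whose heads are few vertices of large degree.
-/

set_option autoImplicit false

namespace Crest.Agent.R52

open Finset Pointwise Equiv

lemma num_pow_lt {R n : ℝ} (hR : 2 ≤ R) (hn : R ^ 4 ≤ n) (j m : ℕ) (hj : (j : ℝ) ≤ R)
    (hm : 6 * n / R ≤ m) : n ^ j < 2 ^ m := by
  have hR0 : 0 < R := by linarith
  have hn0 : 0 < n := lt_of_lt_of_le (by positivity) hn
  set s := Real.sqrt n with hs
  have hss : s * s = n := Real.mul_self_sqrt hn0.le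
  have hs2 : R ^ 2 ≤ s := Real.le_sqrt_of_sq_le (by nlinarith)
  have hs0 : 0 < s := lt_of_lt_of_le (by positivity) hs2
  have h1 : Real.log n ≤ 2 * s := by
    rw [← hss, Real.log_mul hs0.ne' hs0.ne']
    have := Real.log_le_sub_one_of_pos hs0
    linarith
  rw [← Real.log_lt_log_iff (by positivity) (by positivity), Real.log_pow, Real.log_pow]
  have h2 := Real.log_two_gt_d9
  have h3 : (j : ℝ) * Real.log n ≤ R * (2 * s) :=
    (mul_le_mul_of_nonneg_left h1 (Nat.cast_nonneg _)).trans
      (mul_le_mul_of_nonneg_right hj (by positivity))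
  have h4 : R * (2 * s) < 3 * n / R := by
    rw [lt_div_iff₀ hR0, ← hss]
    nlinarith
  have h5 : 3 * n / R = 6 * n / R * (1 / 2) := by ring
  have h6 : 0 ≤ 6 * n / R := by positivity
  have h7 : 6 * n / R * (1 / 2) ≤ m * Real.log 2 :=
    mul_le_mul hm (by linarith) (by norm_num) (Nat.cast_nonneg _)
  linarith

lemma num_mindeg {R : ℝ} (hR : 256 ≤ R) (a x : ℕ) (hax : a ≤ x) (hx : R ^ 4 ≤ x) :
    (a : ℝ) * 2 ^ ⌈16 * R ^ 2⌉₊ * (1 - 1 / (2 * R)) ^ x ≤ 1 / 8 := by
  have hR0 : 0 < R := by linarith
  have hx0 : (0 : ℝ) < x := lt_of_lt_of_le (by positivity) hx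
  set y : ℝ := x / (4 * R) with hy
  have hy0 : 0 < y := by positivity
  have h1 : (1 - 1 / (2 * R)) ^ x ≤ Real.exp (-(2 * y)) := by
    have h2 : 1 - 1 / (2 * R) ≤ Real.exp (-(1 / (2 * R))) := by
      have := Real.add_one_le_exp (-(1 / (2 * R)))
      linarith
    have h3 : 0 ≤ 1 - 1 / (2 * R) := by
      rw [sub_nonneg, div_le_one (by positivity)]; linarith
    refine (pow_le_pow_left₀ h3 h2 x).trans (le_of_eq ?_)
    rw [← Real.exp_nat_mul, hy]
    congr 1
    field_simp; ring
  have h2 : (2 : ℝ) ^ ⌈16 * R ^ 2⌉₊ ≤ Real.exp y := by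
    have h3 : (2 : ℝ) ≤ Real.exp 1 := by
      have := Real.add_one_le_exp (1 : ℝ); linarith
    refine (pow_le_pow_left₀ (by norm_num) h3 _).trans ?_
    rw [← Real.exp_nat_mul, mul_one, Real.exp_le_exp]
    have h4 := Nat.ceil_lt_add_one (a := 16 * R ^ 2) (by positivity)
    refine h4.le.trans ?_
    rw [hy, le_div_iff₀ (by positivity)]
    have : R ^ 4 = R ^ 3 * R := by ring
    have h5 : 0 < R ^ 3 := by positivity
    have h6 : R ≤ R ^ 3 := by nlinarith
    nlinarith
  have h3 : (a : ℝ) * 8 ≤ Real.exp y := by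
    have h4 := Real.pow_div_factorial_le_exp y hy0.le 2
    refine le_trans ?_ h4
    have h5 : (a : ℝ) ≤ x := by exact_mod_cast hax
    rw [hy, div_pow, le_div_iff₀ (by positivity), le_div_iff₀ (by positivity)]
    simp only [Nat.factorial, Nat.succ_eq_add_one, Nat.cast_mul, Nat.cast_one]
    have h6 : 256 * R ^ 2 ≤ x := by
      refine le_trans ?_ hx
      have : R ^ 4 = R ^ 2 * R ^ 2 := by ring
      have h5 : 256 ≤ R ^ 2 := by nlinarith
      nlinarith
    have h7 : (0 : ℝ) ≤ a := Nat.cast_nonneg _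
    push_cast
    nlinarith
  have h4 : Real.exp y * Real.exp y * Real.exp (-(2 * y)) = 1 := by
    rw [← Real.exp_add, ← Real.exp_add]; simp; ring
  have h5 : (a : ℝ) * 8 * 2 ^ ⌈16 * R ^ 2⌉₊ * (1 - 1 / (2 * R)) ^ x ≤
      Real.exp y * Real.exp y * Real.exp (-(2 * y)) := by
    have h3' : 0 ≤ 1 - 1 / (2 * R) := by
      rw [sub_nonneg, div_le_one (by positivity)]; linarith
    gcongr
  linarith

section HubGraph

variable {V : Type} [Fintype V] [DecidableEq V]

theorem cov_hub {p q R : ℝ} (hq0 : 0 < q) (hqp : 256 * q ≤ p) (hp1 : p ≤ 1) {d : ℕ}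
    (hR : (1 / q) ^ d = R) (hdR : (d : ℝ) ≤ R) (hR1 : 256 ≤ R)
    (hn : 4 * R ^ 4 ≤ Fintype.card V)
    (H : Finset (Sym2 V)) (hs : Spread (Perm V) q H) (A U : Finset V) (hAU : Disjoint A U)
    (hA : 50 * A.card ≤ Fintype.card V) (hU : 2 * U.card ≤ Fintype.card V)
    (out : V → Finset V) (hout : ∀ a ∈ A, out a ⊆ U) (hd : ∀ a ∈ A, (out a).card ≤ d)
    (hH : ∀ a ∈ A, ∀ u ∈ out a, s(a, u) ∈ H) (H' : Finset (Sym2 V))
    (hH' : ∀ e ∈ H', ∃ a ∈ A, ∃ u ∈ out a, e = s(a, u)) : Cov (Perm V) p 2 H' := by
  classical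
  set n := Fintype.card V with hnn
  have hp0 : 0 < p := by linarith
  have hq1 : q ≤ 1 := by linarith
  have hR0 : 0 < R := by linarith
  have hn0 : (0 : ℝ) < n := lt_of_lt_of_le (by positivity) hn
  let N : A → Finset U := fun a => univ.filter (fun u : U => (u : V) ∈ out a)
  have hN : ∀ a, (N a).card ≤ d := by
    intro a
    refine le_trans ?_ (hd a a.2)
    apply card_le_card_of_injOn Subtype.val
    · intro u hu
      simpa [N] using hu
    · exact Subtype.val_injective.injOn
  have hX : Fintype.card (Uᶜ : Finset V) = n - U.card := by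
    rw [Fintype.card_coe, card_compl]
  have hXn : (n : ℝ) ≤ 2 * Fintype.card (Uᶜ : Finset V) := by
    rw [hX]
    have : n ≤ 2 * (n - U.card) := by omega
    exact_mod_cast this
  have hAX : 25 * Fintype.card A ≤ Fintype.card (Uᶜ : Finset V) := by
    rw [hX, Fintype.card_coe]; omega
  obtain ⟨Y, hY⟩ := hub_abstract (X := (Uᶜ : Finset V)) (R := R) hp0 hp1 N (by
      intro a
      have h1 : 2 / p ≤ 1 / q := by
        rw [div_le_div_iff₀ hp0 hq0]; linarith
      refine (pow_le_pow_left₀ (by positivity) h1 _).trans ?_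
      rw [← hR]
      exact pow_le_pow_right₀ (one_le_one_div hq0 hq1) (hN a))
    (by linarith) hAX (by linarith) ⌈16 * R ^ 2⌉₊ (Nat.le_ceil _)
    (num_mindeg hR1 _ _ (by omega) (by have : 0 < R ^ 4 := by positivity
                                       linarith)) (by
      intro J
      have hAX' : 25 * (Fintype.card A : ℝ) ≤ Fintype.card (Uᶜ : Finset V) := by
        exact_mod_cast hAX
      rcases J.eq_empty_or_nonempty with rfl | hJ
      · simp only [card_empty, pow_zero, empty_subset, filter_true, card_univ, one_mul]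
        have : (0 : ℝ) ≤ Fintype.card A := Nat.cast_nonneg _
        linarith
      set S := univ.filter (fun a : A => J ⊆ N a) with hS
      rcases S.eq_empty_or_nonempty with h0 | ⟨a0, ha0⟩
      · rw [h0]; simp only [card_empty, Nat.cast_zero, mul_zero]; positivity
      have hj : J.card ≤ d := (card_le_card (mem_filter.mp ha0).2).trans (hN a0)
      have hcod := spread_codegree hs (J.map (Function.Embedding.subtype _))
        (S.map (Function.Embedding.subtype _)) (by
          rw [disjoint_left]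
          intro x hx hx'
          obtain ⟨u, -, rfl⟩ := mem_map.mp hx
          obtain ⟨a, -, ha⟩ := mem_map.mp hx'
          have h1 : (u : V) ∈ A := by
            have : (a : V) = u := ha
            rw [← this]; exact a.2
          exact disjoint_left.mp hAU h1 u.2) (by
          intro x hx y hy
          obtain ⟨a, ha, rfl⟩ := mem_map.mp hx
          obtain ⟨u, hu, rfl⟩ := mem_map.mp hy
          apply hH a a.2
          simpa [N] using (mem_filter.mp ha).2 hu)
      rw [card_map, card_map, ← hnn] at hcod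
      have hqj : 1 / R ≤ q ^ J.card := by
        rw [← hR, one_div, one_div, inv_pow, inv_inv]
        exact pow_le_pow_of_le_one hq0.le hq1 hj
      have hm : (S.card : ℝ) ≤ 6 * n * q ^ J.card := by
        by_contra hc
        push Not at hc
        have hc0 : 0 < 3 * n * q ^ J.card := by positivity
        have h1 : (2 * (3 * n * q ^ J.card)) ^ S.card ≤ (S.card : ℝ) ^ S.card :=
          pow_le_pow_left₀ (by positivity) (by linarith) _
        have h2 := h1.trans hcod
        rw [mul_pow, mul_comm] at h2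
        have h3 := le_of_mul_le_mul_left h2 (pow_pos hc0 _)
        have h4 := num_pow_lt (R := R) (n := n) (by linarith)
          (by have : 0 < R ^ 4 := by positivity
              linarith) J.card S.card (le_trans (by exact_mod_cast hj) hdR) (by
            refine le_trans ?_ hc.le
            rw [div_eq_mul_one_div]
            exact mul_le_mul_of_nonneg_left hqj (by positivity))
        linarith
      have hθ : (1 - p) / p * q ≤ 1 / 256 := by
        rw [div_mul_eq_mul_div, div_le_div_iff₀ hp0 (by norm_num)]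
        nlinarith
      have hθ0 : 0 ≤ (1 - p) / p := div_nonneg (by linarith) hp0.le
      have h5 : ((1 - p) / p * q) ^ J.card ≤ 1 / 256 :=
        (pow_le_of_le_one (by positivity) (by linarith) (card_ne_zero.mpr hJ)).trans hθ
      calc ((1 - p) / p) ^ J.card * (S.card : ℝ)
          ≤ ((1 - p) / p) ^ J.card * (6 * n * q ^ J.card) :=
            mul_le_mul_of_nonneg_left hm (by positivity)
        _ = 6 * n * ((1 - p) / p * q) ^ J.card := by rw [mul_pow]; ring
        _ ≤ 6 * n * (1 / 256) := mul_le_mul_of_nonneg_left h5 (by positivity)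
        _ ≤ _ := by linarith)
  let F : (A → Finset U) → Finset (Sym2 V) := fun Y' =>
    univ.biUnion (fun a : A => (N a ∩ Y' a).image (fun u : U => s((a : V), (u : V))))
  have hgood : ∀ Y' : A → Finset U, (Y' = Y ∨ Y' = fun a => (Y a)ᶜ) → Good (Perm V) p (F Y') := by
    intro Y' hY'
    have h1 := hY Y' hY'
    let P : ((Uᶜ : Finset V) → Finset U) → Prop := fun η =>
      ¬ ∃ f : A → (Uᶜ : Finset V), Function.Injective f ∧ ∀ a, N a ∩ Y' a ⊆ η (f a)
    apply good_of_fail_le (fun G => P (fun x => univ.filter (fun u : U => s((x : V), (u : V)) ∈ G)))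
      hp0.le hp1
    · intro G hG
      obtain ⟨f, hf1, hf2⟩ := not_not.mp hG
      obtain ⟨γ, hγ⟩ := Perm.exists_extending_pair
        (Sum.elim (fun a : A => (a : V)) (fun u : U => (u : V)))
        (Sum.elim (fun a : A => (f a : V)) (fun u : U => (u : V))) (by
          rintro (a | a) (b | b) hab
          · simp only [Sum.elim_inl] at hab; rw [Subtype.ext hab]
          · simp only [Sum.elim_inl, Sum.elim_inr] at hab
            exact absurd (hab ▸ a.2) (disjoint_right.mp hAU b.2)
          · simp only [Sum.elim_inl, Sum.elim_inr] at hab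
            exact absurd (hab ▸ a.2) (disjoint_left.mp hAU b.2)
          · simp only [Sum.elim_inr] at hab; rw [Subtype.ext hab]) (by
          rintro (a | a) (b | b) hab
          · simp only [Sum.elim_inl] at hab; rw [hf1 (Subtype.ext hab)]
          · simp only [Sum.elim_inl, Sum.elim_inr] at hab
            exact absurd (hab ▸ b.2) (mem_compl.mp (f a).2)
          · simp only [Sum.elim_inl, Sum.elim_inr] at hab
            exact absurd (hab ▸ a.2) (mem_compl.mp (f b).2)
          · simp only [Sum.elim_inr] at hab; rw [Subtype.ext hab])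
      refine ⟨γ, ?_⟩
      intro e he
      obtain ⟨e', he', rfl⟩ := mem_smul_finset.mp he
      obtain ⟨a, -, ha⟩ := mem_biUnion.mp he'
      obtain ⟨u, hu, rfl⟩ := mem_image.mp ha
      have h2 := hγ (Sum.inl a)
      have h3 := hγ (Sum.inr u)
      simp only [Sum.elim_inl, Sum.elim_inr] at h2 h3
      rw [smul_mk, h2, h3]
      simpa using hf2 a hu
    · have h2 := sum_wt_biparam p (fun (x : (Uᶜ : Finset V)) (u : U) => s((x : V), (u : V))) (by
        intro x u x' u' h
        simp only [Sym2.eq_iff] at h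
        rcases h with ⟨h1, h2⟩ | ⟨h1, -⟩
        · exact ⟨Subtype.ext h1, Subtype.ext h2⟩
        · exact absurd (h1 ▸ u'.2) (mem_compl.mp x.2)) (fun η => if P η then 1 else 0)
      simp only [mul_ite, mul_one, mul_zero] at h2
      rw [sum_filter, h2, ← sum_filter]
      convert h1
  refine ⟨{F Y, F (fun a => (Y a)ᶜ)}, card_le_two, ?_, ?_⟩
  · intro G hG
    simp only [mem_insert, mem_singleton] at hG
    rcases hG with rfl | rfl
    · exact hgood _ (Or.inl rfl)
    · exact hgood _ (Or.inr rfl)
  · intro e he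
    obtain ⟨a, ha, u, hu, rfl⟩ := hH' e he
    have huU := hout a ha hu
    by_cases h : (⟨u, huU⟩ : U) ∈ Y ⟨a, ha⟩
    · refine ⟨F Y, by simp, mem_biUnion.mpr ⟨⟨a, ha⟩, mem_univ _, mem_image.mpr ⟨⟨u, huU⟩, ?_, rfl⟩⟩⟩
      simp [N, hu, h]
    · refine ⟨F (fun a => (Y a)ᶜ), by simp,
        mem_biUnion.mpr ⟨⟨a, ha⟩, mem_univ _, mem_image.mpr ⟨⟨u, huU⟩, ?_, rfl⟩⟩⟩
      simp [N, hu, h]

end HubGraph

end Crest.Agent.R52
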