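import Mathlib

/-!
A multi-level selector lemma: random labels with geometrically growing densities.
-/

set_option autoImplicit false

namespace Crest.Agent.R52

open Finset

section Selector

variable {α : Type} [Fintype α] [DecidableEq α] {s : ℕ}

/-- number of elements of `T` whose label is at most `j` -/
def cntLe (l : α → Fin (s + 1)) (T : Finset α) (j : ℕ) : ℕ :=
  (T.filter (fun x => (l x : ℕ) ≤ j)).card

/-- feasibility of a weight function for a labelling and a vector of counters -/
def Feas (lam : α → ℝ) (l : α → Fin (s + 1)) (u : ℕ → ℕ) : Prop :=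
  ∀ j < s, ∀ B : Finset α, B.card ≤ 2 ^ (j + 1) * u j →
    2 ^ (j + 1) * (∑ x ∈ univ.filter (fun x => j < (l x : ℕ)), lam x) + ∑ x ∈ B, lam x ≤ 1

/-- the points dominated by fewer than `k` points -/
noncomputable def heavy (lam : α → ℝ) (k : ℕ) : Finset α :=
  univ.filter (fun x => (univ.filter (fun y => lam x ≤ lam y)).card < k)

omit [DecidableEq α] in
lemma heavy_card_le (lam : α → ℝ) (k : ℕ) : (heavy lam k).card ≤ k := by
  by_cases h : (heavy lam k).Nonempty
  · obtain ⟨x, hx, hmin⟩ := exists_min_image (heavy lam k) lam h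
    have h1 : heavy lam k ⊆ univ.filter (fun y => lam x ≤ lam y) := by
      intro y hy
      simp only [mem_filter, mem_univ, true_and]
      exact hmin y hy
    have h2 := card_le_card h1
    have h3 : (univ.filter (fun y => lam x ≤ lam y)).card < k := by
      simpa [heavy] using hx
    omega
  · rw [not_nonempty_iff_eq_empty] at h
    simp [h]

/-- admissible fragment `T` for the modified labelling `l` -/
def Adm (F : Finset (Finset α)) (lam : Finset α → α → ℝ) (l : α → Fin (s + 1))
    (T : Finset α) : Prop :=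
  T.Nonempty ∧ (∀ x ∈ T, (l x : ℕ) < s) ∧ (∃ H ∈ F, Feas (lam H) l (cntLe l T)) ∧
    ∀ H ∈ F, Feas (lam H) l (cntLe l T) →
      ∀ x ∈ T, x ∈ heavy (lam H) (2 ^ ((l x : ℕ) + 1) * cntLe l T (l x))

/-- a labelling is bad when no member of the family is captured well on all levels -/
def Bad (F : Finset (Finset α)) (lam : Finset α → α → ℝ) (l : α → Fin (s + 1)) : Prop :=
  ∀ H ∈ F, ∃ j < s, 1 < 2 ^ (j + 1) * ∑ x ∈ univ.filter (fun x => j < (l x : ℕ)), lam H x

lemma exists_adm (F : Finset (Finset α)) (lam : Finset α → α → ℝ)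
    (hlam0 : ∀ H x, 0 ≤ lam H x) (hsupp : ∀ H ∈ F, ∀ x, x ∉ H → lam H x = 0)
    (hsum : ∀ H ∈ F, ∑ x, lam H x ≤ 1) (l : α → Fin (s + 1)) (hbad : Bad F lam l)
    (H : Finset α) (hH : H ∈ F) :
    ∃ (l' : α → Fin (s + 1)) (T : Finset α), T ⊆ H ∧ (∀ x, x ∉ T → l x = l' x) ∧
      Adm F lam l' T := by
  classical
  let Tf : (α → Fin (s + 1)) → Finset α := fun l' => univ.filter (fun x => l' x < l x)
  let C : Finset (α → Fin (s + 1)) := univ.filter (fun l' => (∀ x, l' x ≤ l x) ∧ Tf l' ⊆ H ∧
    ∃ H' ∈ F, Feas (lam H') l' (cntLe l' (Tf l')))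
  have hCne : C.Nonempty := by
    refine ⟨fun x => if x ∈ H then 0 else l x, ?_⟩
    simp only [C, mem_filter, mem_univ, true_and]
    refine ⟨?_, ?_, H, hH, ?_⟩
    · intro x
      split_ifs
      · exact Fin.zero_le _
      · exact le_rfl
    · intro x hx
      simp only [Tf, mem_filter, mem_univ, true_and] at hx
      by_contra hxH
      simp [hxH] at hx
    · intro j _ B _
      have h1 : ∑ x ∈ univ.filter (fun x => j < ((if x ∈ H then 0 else l x : Fin (s + 1)) : ℕ)),
          lam H x = 0 := by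
        apply sum_eq_zero
        intro x hx
        simp only [mem_filter, mem_univ, true_and] at hx
        apply hsupp H hH
        intro hxH
        simp [hxH] at hx
      rw [h1]
      have h2 : ∑ x ∈ B, lam H x ≤ ∑ x, lam H x :=
        sum_le_sum_of_subset_of_nonneg (subset_univ _) (fun x _ _ => hlam0 H x)
      have := hsum H hH
      linarith
  obtain ⟨l', hl'C, hmax⟩ := exists_max_image C (fun l' => ∑ x, (l' x : ℕ)) hCne
  simp only [C, mem_filter, mem_univ, true_and] at hl'C
  obtain ⟨hle, hTH, H', hH', hfeas⟩ := hl'C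
  have hlt : ∀ x ∈ Tf l', l' x < l x := by
    intro x hx
    simpa [Tf] using hx
  have hlts : ∀ x ∈ Tf l', (l' x : ℕ) < s := by
    intro x hx
    have h1 := hlt x hx
    have h2 := (l x).2
    rw [Fin.lt_def] at h1
    omega
  refine ⟨l', Tf l', hTH, ?_, ?_, hlts, ⟨H', hH', hfeas⟩, ?_⟩
  · intro x hx
    simp only [Tf, mem_filter, mem_univ, true_and, not_lt] at hx
    exact le_antisymm hx (hle x)
  · by_contra hne
    rw [not_nonempty_iff_eq_empty] at hne
    have hll : l' = l := by
      funext x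
      have : x ∉ Tf l' := by simp [hne]
      simp only [Tf, mem_filter, mem_univ, true_and, not_lt] at this
      exact le_antisymm (hle x) this
    obtain ⟨j, hj, hjb⟩ := hbad H' hH'
    have := hfeas j hj ∅ (by simp)
    rw [hll] at this
    simp only [sum_empty, add_zero] at this
    linarith
  · intro K hK hKf x hx
    by_contra hxh
    simp only [heavy, mem_filter, mem_univ, true_and, not_lt] at hxh
    have hxs := hlts x hx
    have hxl := hlt x hx
    rw [Fin.lt_def] at hxl
    let l'' : α → Fin (s + 1) := Function.update l' x ⟨(l' x : ℕ) + 1, by omega⟩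
    have hl''x : (l'' x : ℕ) = l' x + 1 := by simp [l'']
    have hl''y : ∀ y, y ≠ x → l'' y = l' y := by
      intro y hy
      simp [l'', Function.update_of_ne hy]
    have hge : ∀ y, (l' y : ℕ) ≤ l'' y := by
      intro y
      by_cases hy : y = x
      · subst hy; omega
      · rw [hl''y y hy]
    have hTsub : Tf l'' ⊆ Tf l' := by
      intro y hy
      simp only [Tf, mem_filter, mem_univ, true_and] at hy ⊢
      have := hge y
      rw [Fin.lt_def] at hy ⊢
      omega
    have hcnt : ∀ i, cntLe l'' (Tf l'') i ≤ cntLe l' (Tf l') i := by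
      intro i
      apply card_le_card
      intro y hy
      simp only [mem_filter] at hy ⊢
      exact ⟨hTsub hy.1, (hge y).trans hy.2⟩
    have hcntx : cntLe l'' (Tf l'') (l' x) + 1 ≤ cntLe l' (Tf l') (l' x) := by
      have hsub : (Tf l'').filter (fun y => (l'' y : ℕ) ≤ l' x) ⊆
          ((Tf l').filter (fun y => (l' y : ℕ) ≤ l' x)).erase x := by
        intro y hy
        simp only [mem_filter, mem_erase] at hy ⊢
        refine ⟨?_, hTsub hy.1, (hge y).trans hy.2⟩
        rintro rfl
        omega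
      have h1 := card_le_card hsub
      have hxm : x ∈ (Tf l').filter (fun y => (l' y : ℕ) ≤ l' x) := by
        simp only [mem_filter]; exact ⟨hx, le_rfl⟩
      rw [card_erase_of_mem hxm] at h1
      have h2 := card_pos.mpr ⟨x, hxm⟩
      unfold cntLe
      omega
    have hmem : l'' ∈ C := by
      simp only [C, mem_filter, mem_univ, true_and]
      refine ⟨?_, hTsub.trans hTH, K, hK, ?_⟩
      · intro y
        by_cases hy : y = x
        · subst hy
          rw [Fin.le_def]; omega
        · rw [hl''y y hy]; exact hle y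
      · intro j hj B hB
        by_cases hjx : j = l' x
        · subst hjx
          have hfil : univ.filter (fun y => (l' x : ℕ) < (l'' y : ℕ)) =
              insert x (univ.filter (fun y => (l' x : ℕ) < (l' y : ℕ))) := by
            ext y
            simp only [mem_filter, mem_univ, true_and, mem_insert]
            by_cases hy : y = x
            · subst hy; simp [hl''x]
            · rw [hl''y y hy]; simp [hy]
          rw [hfil, sum_insert (by simp)]
          set Y := univ.filter (fun y => lam K x ≤ lam K y) with hY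
          have hYB : 2 ^ ((l' x : ℕ) + 1) ≤ (Y \ B).card := by
            have h1 := le_card_sdiff B Y
            have h2 : 2 ^ ((l' x : ℕ) + 1) * (cntLe l'' (Tf l'') (l' x) + 1) ≤
                2 ^ ((l' x : ℕ) + 1) * cntLe l' (Tf l') (l' x) := Nat.mul_le_mul_left _ hcntx
            rw [mul_add, mul_one] at h2
            omega
          obtain ⟨D, hDsub, hDcard⟩ := exists_subset_card_eq hYB
          have hdisj : Disjoint B D := by
            rw [disjoint_right]
            intro y hy
            exact (mem_sdiff.mp (hDsub hy)).2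
          have hBD : (B ∪ D).card ≤ 2 ^ ((l' x : ℕ) + 1) * cntLe l' (Tf l') (l' x) := by
            rw [card_union_of_disjoint hdisj, hDcard]
            have h2 : 2 ^ ((l' x : ℕ) + 1) * (cntLe l'' (Tf l'') (l' x) + 1) ≤
                2 ^ ((l' x : ℕ) + 1) * cntLe l' (Tf l') (l' x) := Nat.mul_le_mul_left _ hcntx
            rw [mul_add, mul_one] at h2
            omega
          have h3 := hKf (l' x) hj (B ∪ D) hBD
          rw [sum_union hdisj] at h3
          have h4 : (2 : ℝ) ^ ((l' x : ℕ) + 1) * lam K x ≤ ∑ y ∈ D, lam K y := by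
            have := card_nsmul_le_sum D (lam K) (lam K x) (by
              intro y hy
              have := (mem_sdiff.mp (hDsub hy)).1
              simpa [hY] using this)
            rw [hDcard, nsmul_eq_mul] at this
            simpa using this
          linarith
        · have hfil : univ.filter (fun y => j < (l'' y : ℕ)) =
              univ.filter (fun y => j < (l' y : ℕ)) := by
            ext y
            simp only [mem_filter, mem_univ, true_and]
            by_cases hy : y = x
            · subst hy; omega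
            · rw [hl''y y hy]
          rw [hfil]
          exact hKf j hj B (hB.trans (Nat.mul_le_mul_left _ (hcnt j)))
    have h1 := hmax l'' hmem
    have h2 : ∑ y, (l' y : ℕ) < ∑ y, (l'' y : ℕ) :=
      sum_lt_sum (fun y _ => hge y) ⟨x, mem_univ _, by omega⟩
    omega

/-- the type of a fragment: how many of its points carry each label -/
def typ (l : α → Fin (s + 1)) (T : Finset α) : Fin s → ℕ :=
  fun j => (T.filter (fun x => (l x : ℕ) = j)).card

omit [Fintype α] [DecidableEq α] in
lemma prod_typ {M : Type} [CommMonoid M] (l : α → Fin (s + 1)) (T : Finset α)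
    (hT : ∀ x ∈ T, (l x : ℕ) < s) (f : ℕ → M) :
    ∏ x ∈ T, f (l x) = ∏ j : Fin s, f j ^ typ l T j := by
  classical
  have h1 := prod_fiberwise_of_maps_to' (s := T) (t := range s) (g := fun x => (l x : ℕ))
    (fun x hx => mem_range.mpr (hT x hx)) f
  rw [← h1, ← Fin.prod_univ_eq_prod_range (fun j => ∏ _i ∈ T with (l _i : ℕ) = j, f j)]
  simp [typ]

omit [Fintype α] [DecidableEq α] in
lemma cntLe_typ (l : α → Fin (s + 1)) (T : Finset α) (hT : ∀ x ∈ T, (l x : ℕ) < s) (j : ℕ) :
    cntLe l T j = ∑ i : Fin s, if (i : ℕ) ≤ j then typ l T i else 0 := by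
  have h := prod_typ (M := Multiplicative ℕ) l T hT
    (fun i => Multiplicative.ofAdd (if i ≤ j then 1 else 0))
  have h2 := congrArg Multiplicative.toAdd h
  simp only [toAdd_prod, toAdd_ofAdd, toAdd_pow, smul_eq_mul, mul_ite, mul_one, mul_zero] at h2
  rw [← h2, cntLe, card_filter]

omit [Fintype α] [DecidableEq α] in
lemma card_typ (l : α → Fin (s + 1)) (T : Finset α) (hT : ∀ x ∈ T, (l x : ℕ) < s) :
    T.card = ∑ i : Fin s, typ l T i := by
  have h := prod_typ (M := Multiplicative ℕ) l T hT (fun _ => Multiplicative.ofAdd 1)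
  have h2 := congrArg Multiplicative.toAdd h
  simpa using h2

lemma geom_half_le (n : ℕ) : ∑ j ∈ range n, ((1 : ℝ) / 2) ^ j ≤ 2 := by
  have := geom_sum_eq (x := (1 / 2 : ℝ)) (by norm_num) n
  rw [this]
  have : (0 : ℝ) < (1 / 2) ^ n := by positivity
  rw [div_le_iff_of_neg (by norm_num)]
  linarith

lemma geom_small_le (z : ℝ) (hz0 : 0 ≤ z) (hz : z ≤ 1 / 2) (n : ℕ) :
    ∑ k ∈ range n, z ^ k ≤ 1 + 2 * z := by
  induction n with
  | zero => simp; positivity
  | succ n ih =>
    rw [sum_range_succ']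
    simp only [pow_succ, pow_zero]
    rw [← sum_mul]
    nlinarith

lemma sum_adm_type (F : Finset (Finset α)) (lam : Finset α → α → ℝ) (l : α → Fin (s + 1))
    (t : Fin s → ℕ) (A : Finset (Finset α)) (hA : ∀ T ∈ A, Adm F lam l T ∧ typ l T = t) :
    ∑ T ∈ A, ∏ x ∈ T, (1 / (256 * 8 ^ (l x : ℕ)) : ℝ) ≤
      ∏ j : Fin s, (3 / (64 * 2 ^ (j : ℕ)) : ℝ) ^ t j := by
  classical
  rcases A.eq_empty_or_nonempty with rfl | ⟨T0, hT0⟩
  · simp only [sum_empty]; positivity
  obtain ⟨⟨-, hT0s, ⟨H, hH, hfeas⟩, -⟩, hT0t⟩ := hA T0 hT0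
  set u := cntLe l T0 with hu
  set m := ∑ j, t j with hm
  have hum : ∀ j, u j ≤ m := by
    intro j
    rw [hu, hm, ← hT0t, ← card_typ l T0 hT0s]
    exact card_filter_le _ _
  let y : ℕ → ℝ := fun j => 1 / (4 * 4 ^ j)
  have hy0 : ∀ j, 0 ≤ y j := fun j => by positivity
  let Q : Finset α := univ.filter (fun x => (l x : ℕ) < s ∧
    x ∈ heavy (lam H) (2 ^ ((l x : ℕ) + 1) * u (l x)))
  have hsub : A ⊆ Q.powerset := by
    intro T hT
    obtain ⟨⟨-, hTs, -, hTh⟩, hTt⟩ := hA T hT
    have hcu : cntLe l T = u := by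
      funext j
      rw [hu, cntLe_typ l T hTs, cntLe_typ l T0 hT0s, hTt, hT0t]
    rw [mem_powerset]
    intro x hx
    simp only [Q, mem_filter, mem_univ, true_and]
    refine ⟨hTs x hx, ?_⟩
    have := hTh H hH (by rw [hcu]; exact hfeas) x hx
    rwa [hcu] at this
  have hQ : ∑ x ∈ Q, y (l x) ≤ m := by
    have h1 := sum_fiberwise_of_maps_to' (s := Q) (t := range s) (g := fun x => (l x : ℕ))
      (fun x hx => mem_range.mpr (by simp only [Q, mem_filter] at hx; exact hx.2.1)) y
    rw [← h1]
    have h2 : ∀ j ∈ range s, ∑ _i ∈ Q with (l _i : ℕ) = j, y j ≤ (1 / 2) ^ j * (m / 2) := by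
      intro j _
      rw [sum_const, nsmul_eq_mul]
      have h3 : (Q.filter (fun i => (l i : ℕ) = j)).card ≤ 2 ^ (j + 1) * m := by
        refine le_trans (card_le_card (t := heavy (lam H) (2 ^ (j + 1) * u j)) ?_) ?_
        · intro x hx
          simp only [Q, mem_filter, mem_univ, true_and] at hx
          rw [← hx.2]; exact hx.1.2
        · exact (heavy_card_le _ _).trans (Nat.mul_le_mul_left _ (hum j))
      have h4 : ((Q.filter (fun i => (l i : ℕ) = j)).card : ℝ) ≤ 2 ^ (j + 1) * m := by
        exact_mod_cast h3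
      refine (mul_le_mul_of_nonneg_right h4 (hy0 j)).trans (le_of_eq ?_)
      have h5 : (4 : ℝ) ^ j = 2 ^ j * 2 ^ j := by rw [← mul_pow]; norm_num
      simp only [y, h5, one_div, inv_pow, pow_succ]
      field_simp
      ring
    refine (sum_le_sum h2).trans ?_
    rw [← sum_mul]
    have := geom_half_le s
    have hm0 : (0 : ℝ) ≤ m := Nat.cast_nonneg _
    nlinarith
  have hsumy : ∑ T ∈ A, ∏ x ∈ T, y (l x) ≤ 3 ^ m := by
    calc ∑ T ∈ A, ∏ x ∈ T, y (l x) ≤ ∑ T ∈ Q.powerset, ∏ x ∈ T, y (l x) :=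
          sum_le_sum_of_subset_of_nonneg hsub (fun T _ _ => prod_nonneg (fun x _ => hy0 _))
      _ = ∏ x ∈ Q, (1 + y (l x)) := (prod_one_add Q).symm
      _ ≤ Real.exp (∑ x ∈ Q, y (l x)) := Real.prod_one_add_le_exp_sum Q (fun x => hy0 _)
      _ ≤ Real.exp m := Real.exp_le_exp.mpr hQ
      _ = Real.exp 1 ^ m := by rw [← Real.exp_nat_mul]; simp
      _ ≤ 3 ^ m := pow_le_pow_left₀ (Real.exp_pos _).le
          (Real.exp_one_lt_d9.le.trans (by norm_num)) m
  have hterm : ∀ T ∈ A, ∏ x ∈ T, (1 / (256 * 8 ^ (l x : ℕ)) : ℝ) =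
      (∏ j : Fin s, (1 / (64 * 2 ^ (j : ℕ)) : ℝ) ^ t j) * ∏ x ∈ T, y (l x) := by
    intro T hT
    obtain ⟨⟨-, hTs, -, -⟩, hTt⟩ := hA T hT
    rw [← hTt, ← prod_typ l T hTs (fun j => (1 / (64 * 2 ^ j) : ℝ)), ← prod_mul_distrib]
    apply prod_congr rfl
    intro x _
    have h5 : (8 : ℝ) ^ (l x : ℕ) = 2 ^ (l x : ℕ) * 4 ^ (l x : ℕ) := by rw [← mul_pow]; norm_num
    simp only [y, h5]
    field_simp
    norm_num
  rw [sum_congr rfl hterm, ← mul_sum]
  refine (mul_le_mul_of_nonneg_left hsumy (by positivity)).trans (le_of_eq ?_)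
  rw [hm, ← prod_pow_eq_pow_sum, ← prod_mul_distrib]
  apply prod_congr rfl
  intro j _
  rw [← mul_pow]
  congr 1
  field_simp

lemma sum_adm (F : Finset (Finset α)) (lam : Finset α → α → ℝ) (l : α → Fin (s + 1))
    (A : Finset (Finset α)) (hA : ∀ T ∈ A, Adm F lam l T) :
    ∑ T ∈ A, ∏ x ∈ T, (1 / (256 * 8 ^ (l x : ℕ)) : ℝ) ≤ 1 / 4 := by
  classical
  let P : Finset (Fin s → ℕ) := Fintype.piFinset (fun _ => range (Fintype.card α + 1))
  let z : Fin s → ℝ := fun j => 3 / (64 * 2 ^ (j : ℕ))
  have hz0 : ∀ j, 0 ≤ z j := fun j => by positivity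
  have hmaps : ∀ T ∈ A, typ l T ∈ P.erase 0 := by
    intro T hT
    obtain ⟨hne, hTs, -, -⟩ := hA T hT
    rw [mem_erase]
    constructor
    · intro h0
      have := card_typ l T hTs
      rw [h0] at this
      simp only [Pi.zero_apply, sum_const_zero] at this
      have := card_pos.mpr hne
      omega
    · simp only [P, Fintype.mem_piFinset, mem_range]
      intro j
      exact Nat.lt_succ_of_le (card_le_univ _)
  rw [← sum_fiberwise_of_maps_to hmaps]
  have h1 : ∀ t ∈ P.erase 0, ∑ T ∈ A with typ l T = t,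
      ∏ x ∈ T, (1 / (256 * 8 ^ (l x : ℕ)) : ℝ) ≤ ∏ j : Fin s, z j ^ t j := by
    intro t _
    apply sum_adm_type F lam l t
    intro T hT
    rw [mem_filter] at hT
    exact ⟨hA T hT.1, hT.2⟩
  refine (sum_le_sum h1).trans ?_
  have h0P : (0 : Fin s → ℕ) ∈ P := by simp [P]
  have h2 := add_sum_erase P (fun t => ∏ j : Fin s, z j ^ t j) h0P
  simp only [Pi.zero_apply, pow_zero, prod_const_one] at h2
  have h3 : ∑ t ∈ P, ∏ j : Fin s, z j ^ t j =
      ∏ j : Fin s, ∑ k ∈ range (Fintype.card α + 1), z j ^ k :=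
    (prod_univ_sum (fun _ => range (Fintype.card α + 1)) (fun j k => z j ^ k)).symm
  have hzle : ∀ j, z j ≤ 1 / 2 := by
    intro j
    have : (1 : ℝ) ≤ 2 ^ (j : ℕ) := one_le_pow₀ (by norm_num)
    simp only [z]
    rw [div_le_iff₀ (by positivity)]
    linarith
  have h4 : ∏ j : Fin s, ∑ k ∈ range (Fintype.card α + 1), z j ^ k ≤
      ∏ j : Fin s, (1 + 2 * z j) :=
    prod_le_prod (fun j _ => sum_nonneg (fun k _ => pow_nonneg (hz0 j) k))
      (fun j _ => geom_small_le _ (hz0 j) (hzle j) _)
  have h5 : ∏ j : Fin s, (1 + 2 * z j) ≤ Real.exp (∑ j : Fin s, 2 * z j) :=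
    Real.prod_one_add_le_exp_sum _ (fun j => by have := hz0 j; positivity)
  have h6 : ∑ j : Fin s, 2 * z j ≤ 3 / 16 := by
    have : ∑ j : Fin s, 2 * z j = (∑ j ∈ range s, ((1 : ℝ) / 2) ^ j) * (3 / 32) := by
      rw [sum_mul, ← Fin.sum_univ_eq_sum_range (fun j => ((1 : ℝ) / 2) ^ j * (3 / 32))]
      apply sum_congr rfl
      intro j _
      simp only [z, one_div, inv_pow]
      field_simp
      norm_num
    rw [this]
    have := geom_half_le s
    linarith
  have h7 : Real.exp (3 / 16) ≤ 5 / 4 := by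
    have := Real.exp_bound_div_one_sub_of_interval' (x := 3 / 16) (by norm_num) (by norm_num)
    refine this.le.trans (by norm_num)
  have h8 := Real.exp_le_exp.mpr h6
  linarith

omit [DecidableEq α] in
lemma sum_agree [DecidableEq α] (π : Fin (s + 1) → ℝ) (hπ1 : ∑ j, π j = 1) (l' : α → Fin (s + 1))
    (T : Finset α) :
    ∑ l ∈ univ.filter (fun l : α → Fin (s + 1) => ∀ x, x ∉ T → l x = l' x), ∏ x, π (l x) =
      ∏ x ∈ Tᶜ, π (l' x) := by
  classical
  have h1 := Fintype.prod_sum (R := ℝ) (κ := fun _ : α => Fin (s + 1))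
    (fun x j => if x ∈ T then π j else if j = l' x then π j else 0)
  have h2 : ∏ x, ∑ j, (if x ∈ T then π j else if j = l' x then π j else 0) =
      ∏ x ∈ Tᶜ, π (l' x) := by
    rw [← prod_mul_prod_compl T]
    have : ∏ x ∈ T, ∑ j, (if x ∈ T then π j else if j = l' x then π j else 0) = 1 := by
      apply prod_eq_one
      intro x hx
      simp [hx, hπ1]
    rw [this, one_mul]
    apply prod_congr rfl
    intro x hx
    rw [mem_compl] at hx
    simp [hx]
  rw [← h2, h1, sum_filter]
  apply sum_congr rfl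
  intro l _
  split_ifs with h
  · apply prod_congr rfl
    intro x _
    by_cases hx : x ∈ T
    · simp [hx]
    · simp [hx, h x hx]
  · push Not at h
    obtain ⟨x, hx, hne⟩ := h
    symm
    apply prod_eq_zero (mem_univ x)
    simp [hx, hne]

open Classical in
theorem selector (F : Finset (Finset α)) (lam : Finset α → α → ℝ)
    (hlam0 : ∀ H x, 0 ≤ lam H x) (hsupp : ∀ H ∈ F, ∀ x, x ∉ H → lam H x = 0)
    (hsum : ∀ H ∈ F, ∑ x, lam H x ≤ 1) (π : Fin (s + 1) → ℝ) (hπ0 : ∀ j, 0 ≤ π j)
    (hπ1 : ∑ j, π j = 1) (p : ℝ) (hp : 0 ≤ p)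
    (hπp : ∀ j : Fin (s + 1), (j : ℕ) < s → 256 * 8 ^ (j : ℕ) * p ≤ π j)
    (hns : ∀ G : Finset (Finset α), (∀ H ∈ F, ∃ S ∈ G, S ⊆ H) → 1 / 2 < ∑ S ∈ G, p ^ S.card) :
    ∑ l ∈ univ.filter (fun l : α → Fin (s + 1) => Bad F lam l), ∏ x, π (l x) ≤ 1 / 2 := by
  let W : (α → Fin (s + 1)) → ℝ := fun l => ∏ x, π (l x)
  have hW0 : ∀ l, 0 ≤ W l := fun l => prod_nonneg (fun x _ => hπ0 _)
  let Rel : (α → Fin (s + 1)) → (α → Fin (s + 1)) → Finset α → Prop :=
    fun l l' T => Adm F lam l' T ∧ ∀ x, x ∉ T → l x = l' x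
  have hstep1 : ∀ l : α → Fin (s + 1), Bad F lam l →
      1 / 2 ≤ ∑ T : Finset α, ∑ l' : α → Fin (s + 1), if Rel l l' T then p ^ T.card else 0 := by
    intro l hl
    have h1 := hns (univ.filter (fun T => ∃ l', Rel l l' T)) (by
      intro H hH
      obtain ⟨l', T, hTH, hag, hadm⟩ := exists_adm F lam hlam0 hsupp hsum l hl H hH
      exact ⟨T, by simp only [mem_filter, mem_univ, true_and]; exact ⟨l', hadm, hag⟩, hTH⟩)
    refine h1.le.trans ?_
    rw [sum_filter]
    apply sum_le_sum
    intro T _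
    have hnn : ∀ l' ∈ (univ : Finset (α → Fin (s + 1))),
        (0 : ℝ) ≤ if Rel l l' T then p ^ T.card else 0 := by
      intro l' _
      split_ifs <;> positivity
    split_ifs with h
    · obtain ⟨l', hl'⟩ := h
      have := single_le_sum hnn (mem_univ l')
      simpa [hl'] using this
    · exact sum_nonneg hnn
  have hstep2 : ∑ l : α → Fin (s + 1), W l *
      (∑ T : Finset α, ∑ l' : α → Fin (s + 1), if Rel l l' T then p ^ T.card else 0) ≤ 1 / 4 := by
    simp_rw [mul_sum]
    rw [sum_comm]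
    have e1 : ∀ T : Finset α, ∑ l : α → Fin (s + 1), ∑ l' : α → Fin (s + 1),
        W l * (if Rel l l' T then p ^ T.card else 0) ≤
        ∑ l' : α → Fin (s + 1), W l' * (if Adm F lam l' T then
          ∏ x ∈ T, (1 / (256 * 8 ^ (l' x : ℕ)) : ℝ) else 0) := by
      intro T
      rw [sum_comm]
      apply sum_le_sum
      intro l' _
      by_cases hadm : Adm F lam l' T
      · simp only [Rel, hadm, true_and, if_true, mul_ite, mul_zero]
        rw [← sum_filter, ← sum_mul]
        simp only [W]
        rw [sum_agree π hπ1 l' T, ← prod_mul_prod_compl T (fun x => π (l' x))]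
        have h3 : p ^ T.card ≤ (∏ x ∈ T, π (l' x)) *
            ∏ x ∈ T, (1 / (256 * 8 ^ (l' x : ℕ)) : ℝ) := by
          rw [← prod_mul_distrib, ← prod_const]
          apply prod_le_prod (fun _ _ => hp)
          intro x hx
          have := hπp (l' x) (hadm.2.1 x hx)
          rw [mul_one_div, le_div_iff₀ (by positivity)]
          linarith
        have h4 : 0 ≤ ∏ x ∈ Tᶜ, π (l' x) := prod_nonneg (fun x _ => hπ0 _)
        nlinarith
      · simp [Rel, hadm]
    refine (sum_le_sum (fun T _ => e1 T)).trans ?_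
    rw [sum_comm]
    have e2 : ∀ l' : α → Fin (s + 1), ∑ T : Finset α, W l' * (if Adm F lam l' T then
          ∏ x ∈ T, (1 / (256 * 8 ^ (l' x : ℕ)) : ℝ) else 0) ≤ W l' * (1 / 4) := by
      intro l'
      rw [← mul_sum, ← sum_filter]
      apply mul_le_mul_of_nonneg_left _ (hW0 l')
      apply sum_adm F lam l'
      intro T hT
      exact (mem_filter.mp hT).2
    refine (sum_le_sum (fun l' _ => e2 l')).trans ?_
    rw [← sum_mul]
    have : ∑ l' : α → Fin (s + 1), W l' = 1 := by
      have h1 := Fintype.prod_sum (R := ℝ) (κ := fun _ : α => Fin (s + 1)) (fun _ j => π j)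
      simp only [hπ1, prod_const_one] at h1
      exact h1.symm
    rw [this]; norm_num
  have hstep3 : (∑ l ∈ univ.filter (fun l : α → Fin (s + 1) => Bad F lam l), W l) * (1 / 2) ≤
      ∑ l : α → Fin (s + 1), W l *
      (∑ T : Finset α, ∑ l' : α → Fin (s + 1), if Rel l l' T then p ^ T.card else 0) := by
    rw [sum_mul, sum_filter]
    apply sum_le_sum
    intro l _
    split_ifs with h
    · exact mul_le_mul_of_nonneg_left (hstep1 l h) (hW0 l)
    · apply mul_nonneg (hW0 l)
      apply sum_nonneg; intro T _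
      apply sum_nonneg; intro l' _
      split_ifs <;> positivity
  simp only [W] at hstep3 hstep2
  linarith

end Selector

end Crest.Agent.R52
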