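import Mathlib
import Crest.Agent.R52.PermCount
import Crest.Agent.R52.Selector

/-!
The second-moment quantity of sparse graphs with small support or small maximum degree.
-/

set_option autoImplicit false

namespace Crest.Agent.R52

open Finset Pointwise Equiv

section LowDeg

variable {V : Type} [Fintype V] [DecidableEq V]

/-- the vertices met by a set of edges -/
def verts (I : Finset (Sym2 V)) : Finset V := univ.filter (fun v => ∃ e ∈ I, v ∈ e)

lemma mem_verts {I : Finset (Sym2 V)} {v : V} : v ∈ verts I ↔ ∃ e ∈ I, v ∈ e := by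
  simp [verts]

lemma verts_inv {I : Finset (Sym2 V)} {γ : Perm V} (h : ∀ e ∈ I, γ • e ∈ I) :
    ∀ v ∈ verts I, γ v ∈ verts I := by
  intro v hv
  obtain ⟨e, he, hve⟩ := mem_verts.mp hv
  exact mem_verts.mpr ⟨γ • e, h e he, Sym2.mem_map.mpr ⟨v, hve, rfl⟩⟩

lemma phi_le_union {p R : ℝ} (hp0 : 0 < p) (hp1 : p ≤ 1) {d : ℕ} (hR : (1 / p) ^ d ≤ R)
    (H : Finset (Sym2 V)) (hden : ∀ I ⊆ H, I.card ≤ d * (verts I).card)
    {ι : Type} (s : Finset ι) (Ev : ι → Perm V → Prop) [∀ i, DecidablePred (Ev i)] (sz : ι → ℕ)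
    (h : ∀ (γ : Perm V) (I : Finset (Sym2 V)), I ⊆ H → (∀ e ∈ I, γ • e ∈ I) → I.Nonempty →
      ∃ i ∈ s, Ev i γ ∧ (verts I).card = sz i) :
    Phi (Perm V) ((1 - p) / p) H ≤
      Fintype.card (Perm V) + ∑ i ∈ s, R ^ sz i * (univ.filter (Ev i)).card := by
  have hp : 1 ≤ 1 / p := one_le_one_div hp0 hp1
  have hR0 : 0 ≤ R := le_trans (by positivity) hR
  have h1 : ∀ γ : Perm V, ∑ J ∈ H.powerset, (if γ • J = J then ((1 - p) / p) ^ J.card else 0) ≤
      1 + ∑ i ∈ s, if Ev i γ then R ^ sz i else 0 := by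
    intro γ
    obtain ⟨I, hIH, hinv, hle⟩ := exists_inv_part hp0 hp1 H γ
    refine hle.trans ?_
    have hnn : ∀ i ∈ s, (0 : ℝ) ≤ if Ev i γ then R ^ sz i else 0 := by
      intro i _
      split_ifs <;> positivity
    rcases I.eq_empty_or_nonempty with rfl | hne
    · simp only [card_empty, pow_zero, le_add_iff_nonneg_right]
      exact sum_nonneg hnn
    · obtain ⟨i, hi, hev, hsz⟩ := h γ I hIH hinv hne
      have h2 := single_le_sum hnn hi
      simp only [hev, if_true] at h2
      have h3 : (1 / p) ^ I.card ≤ R ^ sz i := by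
        refine (pow_le_pow_right₀ hp (hden I hIH)).trans ?_
        rw [pow_mul, hsz]
        exact pow_le_pow_left₀ (by positivity) hR _
      linarith
  unfold Phi
  refine (sum_le_sum (fun γ _ => h1 γ)).trans (le_of_eq ?_)
  rw [sum_add_distrib, sum_comm]
  simp only [sum_const, card_univ, nsmul_eq_mul, mul_one]
  congr 1
  apply sum_congr rfl
  intro i _
  rw [← sum_filter, sum_const, nsmul_eq_mul, mul_comm]

lemma card_event_le (R0 W : Finset V) (P : Finset (V × V)) (hP : ∀ z ∈ P, z.1 ∈ R0)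
    (nb : V → Finset V) (τ : ℕ) (hnb : ∀ v, (nb v).card ≤ τ) :
    (univ.filter (fun γ : Perm V => (∀ u ∈ R0, γ u ∈ W) ∧ ∀ z ∈ P, γ z.2 ∈ nb (γ z.1))).card ≤
      W.card ^ R0.card * (τ ^ P.card *
        (Fintype.card V - (R0 ∪ P.image Prod.snd).card).factorial) := by
  classical
  have hc : W.card ^ R0.card = (Fintype.piFinset (fun _ : R0 => W)).card := by
    simp [Fintype.card_piFinset]
  rw [hc, mul_comm]
  apply card_le_mul_card_image_of_maps_to (f := fun (γ : Perm V) (u : R0) => γ u)
  · intro γ hγ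
    simp only [mem_filter, mem_univ, true_and] at hγ
    rw [Fintype.mem_piFinset]
    exact fun u => hγ.1 u u.2
  · intro a _
    have hc2 : (Fintype.piFinset (fun z : P => nb (a ⟨z.1.1, hP _ z.2⟩))).card ≤ τ ^ P.card := by
      rw [Fintype.card_piFinset, ← Fintype.card_coe P, ← card_univ, ← prod_const]
      exact prod_le_prod' (fun z _ => hnb _)
    rw [mul_comm]
    refine le_trans ?_ (Nat.mul_le_mul_left _ hc2)
    apply card_le_mul_card_image_of_maps_to (f := fun (γ : Perm V) (z : P) => γ z.1.2)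
    · intro γ hγ
      simp only [mem_filter, mem_univ, true_and] at hγ
      rw [Fintype.mem_piFinset]
      intro z
      rw [← hγ.2]
      exact hγ.1.2 z z.2
    · intro b _
      apply card_agree_le
      intro γ hγ δ hδ w hw
      simp only [mem_filter, mem_univ, true_and] at hγ hδ
      rcases mem_union.mp hw with h | h
      · exact congrFun (hγ.1.2.trans hδ.1.2.symm) ⟨w, h⟩
      · obtain ⟨z, hz, rfl⟩ := mem_image.mp h
        exact congrFun (hγ.2.trans hδ.2.symm) ⟨z, hz⟩

lemma geom_tail_le (z : ℝ) (hz0 : 0 ≤ z) (hz : z ≤ 1 / 2) (n : ℕ) :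
    ∑ k ∈ (range (n + 1)).erase 0, z ^ k ≤ 2 * z := by
  have h1 := add_sum_erase (range (n + 1)) (fun k => z ^ k) (a := 0) (by simp)
  have h2 := geom_small_le z hz0 hz (n + 1)
  simp only [pow_zero] at h1
  linarith

theorem phi_small [Nonempty V] {p R : ℝ} (hp0 : 0 < p) (hp1 : p ≤ 1) {d : ℕ}
    (hR : (1 / p) ^ d ≤ R)
    (H : Finset (Sym2 V)) (hden : ∀ I ⊆ H, I.card ≤ d * (verts I).card)
    (A : Finset V) (hA : verts H ⊆ A) (hsmall : 72 * A.card * R ≤ Fintype.card V) :
    Phi (Perm V) ((1 - p) / p) H ≤ 5 / 4 * Fintype.card (Perm V) := by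
  classical
  set n := Fintype.card V with hn
  have hn0 : (0 : ℝ) < n := by rw [hn]; exact_mod_cast Fintype.card_pos
  have hR0 : 0 ≤ R := le_trans (by positivity) hR
  have h1 := phi_le_union hp0 hp1 hR H hden (A.powerset.erase ∅)
    (fun W γ => ∀ w ∈ W, γ w ∈ W) card (by
      intro γ I hIH hinv hne
      refine ⟨verts I, ?_, verts_inv hinv, rfl⟩
      rw [mem_erase, mem_powerset]
      constructor
      · obtain ⟨e, he⟩ := hne
        exact nonempty_iff_ne_empty.mp ⟨e.out.1, mem_verts.mpr ⟨e, he, e.out_fst_mem⟩⟩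
      · intro v hv
        obtain ⟨e, he, hve⟩ := mem_verts.mp hv
        exact hA (mem_verts.mpr ⟨e, hIH he, hve⟩))
  refine h1.trans ?_
  rw [Fintype.card_perm, ← hn]
  have hmaps : ∀ W ∈ A.powerset.erase ∅, W.card ∈ (range (n + 1)).erase 0 := by
    intro W hW
    rw [mem_erase] at hW ⊢
    exact ⟨card_ne_zero.mpr (nonempty_iff_ne_empty.mpr hW.1),
      mem_range.mpr (Nat.lt_succ_of_le (card_le_univ W))⟩
  rw [← sum_fiberwise_of_maps_to hmaps]
  set x : ℝ := 9 * A.card * R / n with hx
  have hx0 : 0 ≤ x := by positivity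
  have hx1 : x ≤ 1 / 8 := by rw [hx, div_le_iff₀ hn0]; linarith
  have h2 : ∀ v ∈ (range (n + 1)).erase 0, ∑ W ∈ A.powerset.erase ∅ with W.card = v,
      R ^ W.card * ((univ.filter (fun γ : Perm V => ∀ w ∈ W, γ w ∈ W)).card : ℝ) ≤
        x ^ v * n.factorial := by
    intro v hv
    have hvn : v ≤ n := Nat.lt_succ_iff.mp (mem_range.mp (mem_of_mem_erase hv))
    have h3 : ∀ W ∈ (A.powerset.erase ∅).filter (fun W => W.card = v),
        R ^ W.card * ((univ.filter (fun γ : Perm V => ∀ w ∈ W, γ w ∈ W)).card : ℝ) ≤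
          R ^ v * (v ^ v * (n - v).factorial) := by
      intro W hW
      have hWv := (mem_filter.mp hW).2
      rw [hWv]
      apply mul_le_mul_of_nonneg_left _ (by positivity)
      have := card_event_le W W ∅ (by simp) (fun _ => ∅) 0 (by simp)
      simp only [notMem_empty, false_imp_iff, implies_true, and_true, card_empty, pow_zero,
        image_empty, union_empty, one_mul, hWv, ← hn] at this
      exact_mod_cast this
    refine (sum_le_sum h3).trans ?_
    rw [sum_const, nsmul_eq_mul]
    have h4 : (((A.powerset.erase ∅).filter (fun W => W.card = v)).card : ℝ) ≤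
        (A.card : ℝ) ^ v / v.factorial := by
      refine le_trans ?_ (Nat.choose_le_pow_div v A.card)
      rw [← card_powersetCard]
      apply Nat.cast_le.mpr
      apply card_le_card
      intro W hW
      simp only [mem_filter, mem_erase, mem_powerset] at hW
      exact mem_powersetCard.mpr ⟨hW.1.2, hW.2⟩
    have h5 := pow_mul_factorial_sub_le v n hvn
    have h6 := pow_div_factorial_le_three v v
    have h7 : ((n - v).factorial : ℝ) ≤ 3 ^ v * n.factorial / n ^ v := by
      rw [le_div_iff₀ (by positivity)]; linarith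
    calc _ ≤ (A.card : ℝ) ^ v / v.factorial * (R ^ v * (v ^ v * (n - v).factorial)) :=
          mul_le_mul_of_nonneg_right h4 (by positivity)
      _ = (A.card : ℝ) ^ v * R ^ v * ((v ^ v / v.factorial) * (n - v).factorial) := by ring
      _ ≤ (A.card : ℝ) ^ v * R ^ v * (3 ^ v * (3 ^ v * n.factorial / n ^ v)) := by gcongr
      _ = x ^ v * n.factorial := by
          rw [hx, div_pow, mul_pow, mul_pow, show (9 : ℝ) = 3 * 3 by norm_num, mul_pow]
          ring
  have h8 := sum_le_sum h2
  rw [← sum_mul] at h8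
  have h9 : (0 : ℝ) ≤ n.factorial := by positivity
  have h10 := mul_le_mul_of_nonneg_right (geom_tail_le x hx0 (by linarith) n) h9
  nlinarith

lemma exists_small_dominating (I : Finset (Sym2 V)) (hI : ∀ e ∈ I, ¬ e.IsDiag) :
    ∃ R0 ⊆ verts I, R0.card ≤ (verts I \ R0).card ∧
      ∀ w ∈ verts I \ R0, ∃ u ∈ R0, s(u, w) ∈ I := by
  classical
  obtain ⟨M, hM, hmax⟩ := exists_max_image
    ((verts I).powerset.filter (fun M => ∀ a ∈ M, ∀ b ∈ M, s(a, b) ∉ I)) card ⟨∅, by simp⟩
  simp only [mem_filter, mem_powerset] at hM hmax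
  have h1 : ∀ w ∈ verts I \ M, ∃ u ∈ M, s(u, w) ∈ I := by
    intro w hw
    rw [mem_sdiff] at hw
    by_contra hc
    push Not at hc
    have := hmax (insert w M) ⟨insert_subset hw.1 hM.1, by
      intro a ha b hb
      rw [mem_insert] at ha hb
      rcases ha with rfl | ha <;> rcases hb with rfl | hb
      · exact fun h => hI _ h (by simp)
      · rw [Sym2.eq_swap]; exact hc b hb
      · exact hc a ha
      · exact hM.2 a ha b hb⟩
    rw [card_insert_of_notMem hw.2] at this
    omega
  have h2 : ∀ w ∈ M, ∃ u ∈ verts I \ M, s(u, w) ∈ I := by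
    intro w hw
    obtain ⟨e, he, hwe⟩ := mem_verts.mp (hM.1 hw)
    obtain ⟨u, rfl⟩ := Sym2.mem_iff_exists.mp hwe
    refine ⟨u, mem_sdiff.mpr ⟨mem_verts.mpr ⟨_, he, by simp⟩, fun hu => hM.2 w hw u hu he⟩, ?_⟩
    rw [Sym2.eq_swap]; exact he
  by_cases hc : M.card ≤ (verts I \ M).card
  · exact ⟨M, hM.1, hc, h1⟩
  · refine ⟨verts I \ M, sdiff_subset, ?_, ?_⟩
    · rw [Finset.sdiff_sdiff_eq_self hM.1]; omega
    · rw [Finset.sdiff_sdiff_eq_self hM.1]; exact h2

theorem phi_lowdeg [Nonempty V] {p R : ℝ} (hp0 : 0 < p) (hp1 : p ≤ 1) {d : ℕ}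
    (hR : (1 / p) ^ d ≤ R)
    (H : Finset (Sym2 V)) (hloop : ∀ e ∈ H, ¬ e.IsDiag)
    (hden : ∀ I ⊆ H, I.card ≤ d * (verts I).card) (τ : ℕ)
    (hτ : ∀ v, (univ.filter (fun u => s(v, u) ∈ H)).card ≤ τ)
    (hsmall : 3888 * R ^ 2 * τ ^ 2 ≤ Fintype.card V) :
    Phi (Perm V) ((1 - p) / p) H ≤ 5 / 4 * Fintype.card (Perm V) := by
  classical
  set n := Fintype.card V with hn
  have hn0 : (0 : ℝ) < n := by rw [hn]; exact_mod_cast Fintype.card_pos
  have hp : 1 ≤ 1 / p := one_le_one_div hp0 hp1
  have hR1 : 1 ≤ R := le_trans (one_le_pow₀ hp) hR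
  have hR0 : 0 ≤ R := by linarith
  let nb : V → Finset V := fun v => univ.filter (fun u => s(v, u) ∈ H)
  let s : Finset (Finset V × Finset (V × V)) := univ.filter (fun y => y.2.Nonempty ∧
    (∀ z ∈ y.2, z.1 ∈ y.1 ∧ z.2 ∈ nb z.1) ∧ y.1.card ≤ y.2.card ∧
    (y.1 ∪ y.2.image Prod.snd).card = y.1.card + y.2.card)
  let Ev : Finset V × Finset (V × V) → Perm V → Prop := fun y γ =>
    (∀ u ∈ y.1, γ u ∈ y.1 ∪ y.2.image Prod.snd) ∧ ∀ z ∈ y.2, γ z.2 ∈ nb (γ z.1)
  have h1 := phi_le_union hp0 hp1 hR H hden s Ev (fun y => y.1.card + y.2.card) (by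
      intro γ I hIH hinv hne
      obtain ⟨R0, hR0, hcard, hdom⟩ := exists_small_dominating I (fun e he => hloop e (hIH he))
      choose! ρ hρ1 hρ2 using hdom
      let P := (verts I \ R0).image (fun w => (ρ w, w))
      have hPc : P.card = (verts I \ R0).card :=
        card_image_of_injective _ (fun a b h => (Prod.ext_iff.mp h).2)
      have hPs : P.image Prod.snd = verts I \ R0 := by
        simp only [P, image_image]
        exact image_id
      have hU : R0 ∪ P.image Prod.snd = verts I := by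
        rw [hPs, union_sdiff_of_subset hR0]
      have hcc : (verts I).card = R0.card + P.card := by
        rw [hPc, card_sdiff_of_subset hR0]
        have := card_le_card hR0
        omega
      have hpos : 0 < (verts I).card := by
        obtain ⟨e, he⟩ := hne
        exact card_pos.mpr ⟨e.out.1, mem_verts.mpr ⟨e, he, e.out_fst_mem⟩⟩
      refine ⟨(R0, P), ?_, ⟨?_, ?_⟩, hcc⟩
      · simp only [s, mem_filter, mem_univ, true_and]
        refine ⟨card_pos.mp (by omega), ?_, by omega, by rw [hU, hcc]⟩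
        intro z hz
        obtain ⟨w, hw, rfl⟩ := mem_image.mp hz
        exact ⟨hρ1 w hw, by simpa [nb] using hIH (hρ2 w hw)⟩
      · intro u hu
        simp only [hU]
        exact verts_inv hinv u (hR0 hu)
      · intro z hz
        obtain ⟨w, hw, rfl⟩ := mem_image.mp hz
        have := hIH (hinv _ (hρ2 w hw))
        simpa [nb] using this)
  refine h1.trans ?_
  rw [Fintype.card_perm, ← hn]
  have hmaps : ∀ y ∈ s, y.2.card ∈ (range (n + 1)).erase 0 := by
    intro y hy
    simp only [s, mem_filter, mem_univ, true_and] at hy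
    rw [mem_erase, mem_range]
    have := card_le_univ (y.1 ∪ y.2.image Prod.snd)
    have := card_pos.mpr hy.1
    omega
  rw [← sum_fiberwise_of_maps_to hmaps]
  set x : ℝ := 243 * R ^ 2 * τ ^ 2 / n with hx
  have hx0 : 0 ≤ x := by positivity
  have hx1 : x ≤ 1 / 16 := by rw [hx, div_le_iff₀ hn0]; linarith
  have h2 : ∀ t ∈ (range (n + 1)).erase 0, ∑ y ∈ s with y.2.card = t,
      R ^ (y.1.card + y.2.card) * ((univ.filter (Ev y)).card : ℝ) ≤
        (2 * x) ^ t * n.factorial := by
    intro t _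
    have hmaps2 : ∀ y ∈ s.filter (fun y => y.2.card = t), y.1.card ∈ range (t + 1) := by
      intro y hy
      simp only [s, mem_filter, mem_univ, true_and] at hy
      rw [mem_range]; omega
    rw [← sum_fiberwise_of_maps_to hmaps2]
    have h3 : ∀ r ∈ range (t + 1), ∑ y ∈ s.filter (fun y => y.2.card = t) with y.1.card = r,
        R ^ (y.1.card + y.2.card) * ((univ.filter (Ev y)).card : ℝ) ≤ x ^ t * n.factorial := by
      intro r hr
      have hrt : r ≤ t := Nat.lt_succ_iff.mp (mem_range.mp hr)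
      have h4 : ∀ y ∈ (s.filter (fun y => y.2.card = t)).filter (fun y => y.1.card = r),
          R ^ (y.1.card + y.2.card) * ((univ.filter (Ev y)).card : ℝ) ≤
          R ^ (r + t) * (((r + t : ℕ) : ℝ) ^ r * (τ ^ t * (3 ^ (r + t) * n.factorial / n ^ (r + t)))) := by
        intro y hy
        simp only [s, mem_filter, mem_univ, true_and] at hy
        obtain ⟨⟨⟨-, hy2, -, hy4⟩, hy5⟩, hy6⟩ := hy
        have h5 := card_event_le y.1 (y.1 ∪ y.2.image Prod.snd) y.2 (fun z hz => (hy2 z hz).1)
          nb τ hτ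
        have hle := card_le_univ (y.1 ∪ y.2.image Prod.snd)
        rw [hy4, hy5, hy6, ← hn] at h5 hle
        rw [hy5, hy6]
        apply mul_le_mul_of_nonneg_left _ (by positivity)
        have h6 := pow_mul_factorial_sub_le (r + t) n hle
        have h7 : ((n - (r + t)).factorial : ℝ) ≤ 3 ^ (r + t) * n.factorial / n ^ (r + t) := by
          rw [le_div_iff₀ (by positivity)]; linarith
        calc ((univ.filter (Ev y)).card : ℝ)
            ≤ (((r + t : ℕ) : ℝ) ^ r * (τ ^ t * (n - (r + t)).factorial)) := by exact_mod_cast h5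
          _ ≤ _ := by gcongr
      refine (sum_le_sum h4).trans ?_
      rw [sum_const, nsmul_eq_mul]
      have h8 : ((s.filter (fun y => y.2.card = t)).filter (fun y => y.1.card = r)).card ≤
          (r * τ).choose t * n.choose r := by
        rw [hn, ← card_univ, ← card_powersetCard]
        apply card_le_mul_card_image_of_maps_to (f := Prod.fst)
        · intro y hy
          exact mem_powersetCard.mpr ⟨subset_univ _, (mem_filter.mp hy).2⟩
        · intro R0 hR0
          let Q := R0.biUnion (fun u => (nb u).image (fun w => (u, w)))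
          have hQ : Q.card ≤ r * τ := by
            refine card_biUnion_le.trans ?_
            rw [← (mem_powersetCard.mp hR0).2, ← smul_eq_mul, ← sum_const]
            exact sum_le_sum (fun u _ => card_image_le.trans (hτ u))
          refine le_trans ?_ (Nat.choose_le_choose t hQ)
          rw [← card_powersetCard]
          apply card_le_card_of_injOn Prod.snd
          · intro y hy
            simp only [s, coe_filter, mem_filter, mem_univ, true_and, Set.mem_ofPred_eq] at hy
            obtain ⟨⟨⟨⟨-, hy2, -, -⟩, hy5⟩, -⟩, hy7⟩ := hy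
            rw [mem_coe, mem_powersetCard]
            refine ⟨fun z hz => ?_, hy5⟩
            simp only [Q, mem_biUnion, mem_image]
            exact ⟨z.1, hy7 ▸ (hy2 z hz).1, z.2, (hy2 z hz).2, rfl⟩
          · intro y hy y' hy' h
            simp only [coe_filter, Set.mem_ofPred_eq] at hy hy'
            exact Prod.ext (hy.2.trans hy'.2.symm) h
      have h9 : (((s.filter (fun y => y.2.card = t)).filter (fun y => y.1.card = r)).card : ℝ) ≤
          (τ ^ t * 3 ^ t) * (n ^ r / r.factorial) := by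
        refine le_trans (by exact_mod_cast h8 : _ ≤ ((r * τ).choose t : ℝ) * n.choose r) ?_
        apply mul_le_mul _ (Nat.choose_le_pow_div r n) (by positivity) (by positivity)
        refine (Nat.choose_le_pow_div t (r * τ)).trans ?_
        have h10 := pow_div_factorial_le_three t t
        have h11 : (r : ℝ) ≤ t := by exact_mod_cast hrt
        calc (((r * τ : ℕ) : ℝ)) ^ t / t.factorial = τ ^ t * ((r : ℝ) ^ t / t.factorial) := by
              push_cast; ring
          _ ≤ τ ^ t * ((t : ℝ) ^ t / t.factorial) := by gcongr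
          _ ≤ _ := by gcongr
      have h12 := pow_div_factorial_le_three (r + t) r
      have h13 : R ^ (r + t) ≤ R ^ (2 * t) := pow_le_pow_right₀ hR1 (by omega)
      have h14 : (3 : ℝ) ^ (r + t) ≤ 3 ^ (2 * t) := pow_le_pow_right₀ (by norm_num) (by omega)
      calc _ ≤ (τ ^ t * 3 ^ t) * (n ^ r / r.factorial) * (R ^ (r + t) * (((r + t : ℕ) : ℝ) ^ r *
            (τ ^ t * (3 ^ (r + t) * n.factorial / n ^ (r + t))))) :=
            mul_le_mul_of_nonneg_right h9 (by positivity)
        _ = (τ ^ t * τ ^ t * 3 ^ t / n ^ t * n.factorial) * (R ^ (r + t) *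
            ((((r + t : ℕ) : ℝ) ^ r / r.factorial) * 3 ^ (r + t))) := by
            rw [pow_add (n : ℝ)]; field_simp
        _ ≤ (τ ^ t * τ ^ t * 3 ^ t / n ^ t * n.factorial) * (R ^ (2 * t) *
            (3 ^ (2 * t) * 3 ^ (2 * t))) := by
            gcongr
            exact h12.trans h14
        _ = x ^ t * n.factorial := by
            rw [hx, div_pow, mul_pow, mul_pow, show (243 : ℝ) = 3 * (3 ^ 2 * 3 ^ 2) by norm_num,
              mul_pow, mul_pow, ← pow_mul, ← pow_mul, ← pow_mul, two_mul t, pow_add (τ : ℝ)]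
            ring
    refine (sum_le_sum h3).trans ?_
    rw [sum_const, card_range, nsmul_eq_mul, mul_pow, ← mul_assoc]
    have h15 : ((t + 1 : ℕ) : ℝ) ≤ 2 ^ t := by exact_mod_cast Nat.lt_two_pow_self
    gcongr
  have h8 := sum_le_sum h2
  rw [← sum_mul] at h8
  have h9 : (0 : ℝ) ≤ n.factorial := by positivity
  have h10 := mul_le_mul_of_nonneg_right
    (geom_tail_le (2 * x) (by positivity) (by linarith) n) h9
  nlinarith

end LowDeg

end Crest.Agent.R52
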