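import Mathlib
import Crest.Agent.R52.PermCount
import Crest.Agent.R52.Selector

/-!
The second-moment quantity of a spread star forest.
-/

set_option autoImplicit false

namespace Crest.Agent.R52

open Finset Pointwise Equiv

lemma card_monotone_le (i : ℕ) [DecidablePred (fun g : Fin i → Fin i => Monotone g)] :
    (univ.filter (fun g : Fin i → Fin i => Monotone g)).card ≤ 4 ^ i := by
  have h : (4 : ℕ) ^ i = (range (2 * i)).powerset.card := by
    rw [card_powerset, card_range, pow_mul]; norm_num
  rw [h]
  apply card_le_card_of_injOn (fun g => univ.image (fun j : Fin i => (j : ℕ) + g j))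
  · intro g _
    simp only [coe_powerset, Set.mem_preimage, Set.mem_powerset_iff, coe_image, coe_range]
    rintro _ ⟨j, -, rfl⟩
    have := j.2
    have := (g j).2
    simp only [Set.mem_Iio]
    omega
  · intro g hg g' hg' hgg
    simp only [coe_filter, mem_univ, true_and, Set.mem_ofPred_eq] at hg hg'
    have hs : ∀ g : Fin i → Fin i, Monotone g → StrictMono (fun j : Fin i => (j : ℕ) + g j) := by
      intro g hg a b hab
      have h1 := hg hab.le
      rw [Fin.le_def] at h1
      rw [Fin.lt_def] at hab
      dsimp only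
      omega
    have h1 : Set.range (fun j : Fin i => (j : ℕ) + g j) =
        Set.range (fun j : Fin i => (j : ℕ) + g' j) := by
      have := congrArg (fun s : Finset ℕ => (s : Set ℕ)) hgg
      simpa using this
    have h2 := ((hs g hg).range_inj (hs g' hg')).mp h1
    funext j
    have := congrFun h2 j
    apply Fin.ext
    simpa using this

section Star

variable {V : Type} [Fintype V] [DecidableEq V]

lemma star_canonical (vv : ℕ → V) (hvv : ∀ a < Fintype.card V, ∀ b < Fintype.card V,
      vv a = vv b → a = b) (A : Finset V) (h : V → V) (hA : ∀ a ∈ A, h a ∉ A)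
    (I : Finset (Sym2 V)) (hI : ∀ e ∈ I, ∃ a ∈ A, e = s(a, h a)) :
    ∃ (δ : Perm V) (i : ℕ) (g : Fin i → Fin i), Monotone g ∧ I.card = i ∧ i ≤ Fintype.card V ∧
      δ • I = univ.image (fun j : Fin i => s(vv j, vv (i + g j))) := by
  classical
  let A' := A.filter (fun a => s(a, h a) ∈ I)
  have hIA : I = A'.image (fun a => s(a, h a)) := by
    ext e
    simp only [A', mem_image, mem_filter]
    constructor
    · intro he
      obtain ⟨a, ha, rfl⟩ := hI e he
      exact ⟨a, ⟨ha, he⟩, rfl⟩
    · rintro ⟨a, ⟨-, ha⟩, rfl⟩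
      exact ha
  have hA'A : A' ⊆ A := filter_subset _ _
  have hcard : I.card = A'.card := by
    rw [hIA]
    apply card_image_of_injOn
    intro a ha b hb hab
    simp only [Sym2.eq_iff] at hab
    rcases hab with ⟨h1, -⟩ | ⟨h1, -⟩
    · exact h1
    · exact absurd (h1 ▸ hA'A ha) (hA b (hA'A hb))
  let Z := A'.image h
  have hZ : Z.card ≤ A'.card := card_image_le
  have hdisj : Disjoint A' Z := by
    rw [disjoint_right]
    intro z hz hzA
    obtain ⟨a, ha, rfl⟩ := mem_image.mp hz
    exact hA a (hA'A ha) (hA'A hzA)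
  have hsum : A'.card + Z.card ≤ Fintype.card V := by
    rw [← card_union_of_disjoint hdisj]
    exact card_le_univ _
  let e := A'.equivFin.symm
  let c := Z.equivFin
  let f : Fin A'.card → Fin A'.card := fun j =>
    Fin.castLE hZ (c ⟨h (e j), mem_image_of_mem h (e j).2⟩)
  let σ := Tuple.sort f
  let F : Fin A'.card ⊕ Fin Z.card → V := Sum.elim (fun j => e (σ j)) (fun k => c.symm k)
  let G : Fin A'.card ⊕ Fin Z.card → V := Sum.elim (fun j => vv j) (fun k => vv (A'.card + k))
  have hF : Function.Injective F := by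
    rintro (a | a) (b | b) hab
    · simp only [F, Sum.elim_inl] at hab
      rw [σ.injective (e.injective (Subtype.ext hab))]
    · simp only [F, Sum.elim_inl, Sum.elim_inr] at hab
      exact absurd (hab ▸ (e (σ a)).2) (disjoint_right.mp hdisj (c.symm b).2)
    · simp only [F, Sum.elim_inl, Sum.elim_inr] at hab
      exact absurd (hab ▸ (c.symm a).2) (disjoint_left.mp hdisj (e (σ b)).2)
    · simp only [F, Sum.elim_inr] at hab
      rw [c.symm.injective (Subtype.ext hab)]
  have hG : Function.Injective G := by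
    rintro (a | a) (b | b) hab
    · simp only [G, Sum.elim_inl] at hab
      have := hvv _ (by omega) _ (by omega) hab
      rw [Fin.ext this]
    · simp only [G, Sum.elim_inl, Sum.elim_inr] at hab
      have := hvv _ (by omega) _ (by omega) hab
      omega
    · simp only [G, Sum.elim_inl, Sum.elim_inr] at hab
      have := hvv _ (by omega) _ (by omega) hab
      omega
    · simp only [G, Sum.elim_inr] at hab
      have := hvv _ (by omega) _ (by omega) hab
      rw [Fin.ext (by omega : (a : ℕ) = b)]
  obtain ⟨δ, hδ⟩ := Perm.exists_extending_pair F G hF hG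
  refine ⟨δ, A'.card, f ∘ σ, Tuple.monotone_sort f, hcard, by omega, ?_⟩
  have key : ∀ j : Fin A'.card, δ • s((e (σ j) : V), h (e (σ j))) =
      s(vv j, vv (A'.card + (f ∘ σ) j)) := by
    intro j
    have h1 := hδ (Sum.inl j)
    have h2 := hδ (Sum.inr (c ⟨h (e (σ j)), mem_image_of_mem h (e (σ j)).2⟩))
    simp only [F, G, Sum.elim_inl, Sum.elim_inr, symm_apply_apply] at h1 h2
    rw [smul_mk, h1, h2]
    simp [f]
  rw [hIA]
  ext x
  simp only [mem_smul_finset, mem_image, mem_univ, true_and]
  constructor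
  · rintro ⟨_, ⟨a, ha, rfl⟩, rfl⟩
    refine ⟨σ.symm (e.symm ⟨a, ha⟩), ?_⟩
    rw [← key]
    simp
  · rintro ⟨j, rfl⟩
    exact ⟨_, ⟨e (σ j), (e (σ j)).2, rfl⟩, key j⟩

theorem phi_star [Nonempty V] {θ q : ℝ} (hθ : 0 ≤ θ) (hq : 0 ≤ q) (hx : θ * q ≤ 1 / 32)
    (H : Finset (Sym2 V)) (hs : Spread (Perm V) q H) (A : Finset V) (h : V → V)
    (hA : ∀ a ∈ A, h a ∉ A) (hH : ∀ e ∈ H, ∃ a ∈ A, e = s(a, h a)) :
    Phi (Perm V) θ H ≤ 5 / 4 * Fintype.card (Perm V) := by
  classical
  set n := Fintype.card V with hn
  let vv : ℕ → V := fun j =>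
    if hj : j < n then (Fintype.equivFin V).symm ⟨j, hj⟩ else Classical.arbitrary V
  have hvv : ∀ a < n, ∀ b < n, vv a = vv b → a = b := by
    intro a ha b hb hab
    simp only [vv, ha, hb, dif_pos] at hab
    simpa using hab
  let can : (i : ℕ) → (Fin i → Fin i) → Finset (Sym2 V) := fun i g =>
    univ.image (fun j : Fin i => s(vv j, vv (i + g j)))
  let C : Finset (Finset (Sym2 V)) := univ.filter (fun c => ∃ (i : ℕ) (g : Fin i → Fin i),
    Monotone g ∧ c.card = i ∧ i ≤ n ∧ c = can i g)
  have h1 := phi_le_of_reps hθ H hs C (by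
    intro I hI
    obtain ⟨δ, i, g, hg, hi, hin, hδ⟩ := star_canonical vv hvv A h hA I (fun e he => hH e (hI he))
    refine ⟨δ, ?_⟩
    simp only [C, mem_filter, mem_univ, true_and]
    exact ⟨i, g, hg, by rw [card_smul_finset, hi], hin, hδ⟩)
  refine h1.trans (mul_le_mul_of_nonneg_right ?_ (by positivity))
  have hx0 : 0 ≤ θ * q := mul_nonneg hθ hq
  have hmaps : ∀ c ∈ C, c.card ∈ range (n + 1) := by
    intro c hc
    simp only [C, mem_filter, mem_univ, true_and] at hc
    obtain ⟨i, g, -, h1, h2, -⟩ := hc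
    rw [mem_range]; omega
  rw [← sum_fiberwise_of_maps_to hmaps]
  have h2 : ∀ i ∈ range (n + 1), ∑ c ∈ C with c.card = i, (θ * q) ^ c.card ≤
      (4 * (θ * q)) ^ i := by
    intro i _
    rw [sum_congr rfl (g := fun _ => (θ * q) ^ i) (fun c hc => by rw [(mem_filter.mp hc).2]),
      sum_const, nsmul_eq_mul, mul_pow 4]
    apply mul_le_mul_of_nonneg_right _ (pow_nonneg hx0 i)
    have h3 : C.filter (fun c => c.card = i) ⊆
        (univ.filter (fun g : Fin i → Fin i => Monotone g)).image (can i) := by
      intro c hc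
      simp only [C, mem_filter, mem_univ, true_and] at hc
      obtain ⟨⟨i', g, hg, h1, -, h2⟩, h3⟩ := hc
      obtain rfl : i' = i := by omega
      exact mem_image.mpr ⟨g, by simpa using hg, h2.symm⟩
    exact_mod_cast (card_le_card h3).trans (card_image_le.trans (card_monotone_le i))
  refine (sum_le_sum h2).trans ((geom_small_le _ (by positivity) (by linarith) _).trans ?_)
  linarith

end Star

end Crest.Agent.R52
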