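import Mathlib
import Crest.Agent.R52.HubGraph
import Crest.Agent.R52.LowDeg
import Crest.Agent.R52.Star

/-!
A spread graph is covered by boundedly many pieces that appear in the random graph.
-/

set_option autoImplicit false

namespace Crest.Agent.R52

open Finset Pointwise Equiv

lemma exists_split {α : Type} [DecidableEq α] (s : Finset α) (K m : ℕ) (h : s.card ≤ K * m) :
    ∃ c : α → ℕ, (∀ x ∈ s, c x < K) ∧ ∀ i, (s.filter (fun x => c x = i)).card ≤ m := by
  classical
  rcases Nat.eq_zero_or_pos m with rfl | hm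
  · have : s = ∅ := card_eq_zero.mp (by omega)
    subst this
    exact ⟨fun _ => 0, by simp, by simp⟩
  let idx : α → ℕ := fun x => if h : x ∈ s then s.equivFin ⟨x, h⟩ else 0
  refine ⟨fun x => idx x / m, ?_, ?_⟩
  · intro x hx
    rw [Nat.div_lt_iff_lt_mul hm]
    simp only [idx, hx, dif_pos]
    exact lt_of_lt_of_le (s.equivFin ⟨x, hx⟩).2 h
  · intro i
    conv_rhs => rw [← card_range m]
    apply card_le_card_of_injOn (fun x => idx x % m)
    · intro x _
      simp [Nat.mod_lt _ hm]
    · intro x hx y hy hxy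
      simp only [coe_filter, Set.mem_ofPred_eq] at hx hy
      have h1 : idx x = idx y := by
        rw [← Nat.div_add_mod (idx x) m, ← Nat.div_add_mod (idx y) m, hx.2, hy.2]
        simp only at hxy
        rw [hxy]
      simp only [idx, hx.1, hy.1, dif_pos] at h1
      have := s.equivFin.injective (Fin.ext h1)
      exact congrArg Subtype.val this

section Assembly

variable {V : Type} [Fintype V] [DecidableEq V]

lemma handshake (J : Finset (Sym2 V)) :
    ∑ v, (univ.filter (fun u => s(v, u) ∈ J)).card ≤ 2 * J.card := by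
  have h1 : ∑ v, (univ.filter (fun u => s(v, u) ∈ J)).card =
      (univ.filter (fun z : V × V => s(z.1, z.2) ∈ J)).card := by
    simp only [card_filter]
    rw [Fintype.sum_prod_type]
  rw [h1]
  apply card_le_mul_card_image_of_maps_to (f := fun z : V × V => s(z.1, z.2))
  · intro z hz
    exact (mem_filter.mp hz).2
  · intro e _
    induction e using Sym2.ind with
    | h a b =>
      refine le_trans (card_le_card (t := {(a, b), (b, a)}) ?_) card_le_two
      intro z hz
      have := (mem_filter.mp hz).2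
      simp only [Sym2.eq_iff] at this
      simp only [mem_insert, mem_singleton, Prod.ext_iff]
      exact this

lemma exists_orient (d : ℕ) (H : Finset (Sym2 V)) (hloop : ∀ e ∈ H, ¬ e.IsDiag)
    (hdeg : ∀ J ⊆ H, J.Nonempty → ∃ v ∈ verts J, (univ.filter (fun u => s(v, u) ∈ J)).card ≤ d) :
    ∃ (out : V → Finset V) (col : V → ℕ), (∀ v, (out v).card ≤ d) ∧
      (∀ v, ∀ u ∈ out v, s(v, u) ∈ H) ∧ (∀ e ∈ H, ∃ v, ∃ u ∈ out v, e = s(v, u)) ∧
      (∀ v, col v ≤ d) ∧ ∀ v u, s(v, u) ∈ H → col v ≠ col u := by
  induction H using Finset.strongInduction with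
  | H H ih =>
  rcases H.eq_empty_or_nonempty with rfl | hne
  · exact ⟨fun _ => ∅, fun _ => 0, by simp, by simp, by simp, by simp, by simp⟩
  obtain ⟨v, hv, hvd⟩ := hdeg H subset_rfl hne
  let H' := H.filter (fun e => v ∉ e)
  have hsub : H' ⊆ H := filter_subset _ _
  have hss : H' ⊂ H := by
    obtain ⟨e, he, hve⟩ := mem_verts.mp hv
    exact ⟨hsub, fun h => (mem_filter.mp (h he)).2 hve⟩
  obtain ⟨out, col, h1, h2, h3, h4, h5⟩ := ih H' hss (fun e he => hloop e (hsub he))
    (fun J hJ => hdeg J (hJ.trans hsub))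
  set nb := univ.filter (fun u => s(v, u) ∈ H) with hnb
  obtain ⟨c, hc1, hc2⟩ : ∃ c ∈ range (d + 1), c ∉ nb.image col := by
    apply exists_mem_notMem_of_card_lt_card
    rw [card_range]
    exact Nat.lt_succ_of_le (card_image_le.trans hvd)
  have hcne : ∀ u, s(v, u) ∈ H → c ≠ col u := by
    intro u hu h
    exact hc2 (mem_image.mpr ⟨u, by simp [hnb, hu], h.symm⟩)
  refine ⟨Function.update out v nb, Function.update col v c, ?_, ?_, ?_, ?_, ?_⟩
  · intro w
    by_cases hw : w = v
    · subst hw; simpa using hvd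
    · simpa [hw] using h1 w
  · intro w u hu
    by_cases hw : w = v
    · subst hw; simpa [hnb] using hu
    · rw [Function.update_of_ne hw] at hu
      exact hsub (h2 w u hu)
  · intro e he
    by_cases hve : v ∈ e
    · obtain ⟨u, rfl⟩ := Sym2.mem_iff_exists.mp hve
      exact ⟨v, u, by simpa [hnb] using he, rfl⟩
    · obtain ⟨w, u, hu, rfl⟩ := h3 e (mem_filter.mpr ⟨he, hve⟩)
      have hw : w ≠ v := fun h => hve (by simp [h])
      exact ⟨w, u, by rwa [Function.update_of_ne hw], rfl⟩
  · intro w
    by_cases hw : w = v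
    · subst hw; simpa using Nat.lt_succ_iff.mp (mem_range.mp hc1)
    · simpa [hw] using h4 w
  · intro w u hwu
    have hne : w ≠ u := fun h => hloop _ hwu (by simp [h])
    by_cases hw : w = v
    · subst hw
      rw [Function.update_self, Function.update_of_ne hne.symm]
      exact hcne u hwu
    · by_cases hu : u = v
      · subst hu
        rw [Function.update_self, Function.update_of_ne hw]
        exact (hcne w (by rw [Sym2.eq_swap]; exact hwu)).symm
      · rw [Function.update_of_ne hw, Function.update_of_ne hu]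
        apply h5
        refine mem_filter.mpr ⟨hwu, ?_⟩
        simp [Ne.symm hw, Ne.symm hu]

lemma spread_degenerate {q : ℝ} (hq0 : 0 < q) (hq1 : q ≤ 1) {H : Finset (Sym2 V)}
    (hs : Spread (Perm V) q H) (d : ℕ) (hd : (Fintype.card V : ℝ) ^ 2 < (1 / q) ^ (d + 1)) :
    ∀ J ⊆ H, J.Nonempty → ∃ v ∈ verts J, (univ.filter (fun u => s(v, u) ∈ J)).card ≤ d := by
  intro J hJ hne
  by_contra hc
  push Not at hc
  have h1 := spread_density hs J hJ (verts J) (fun e he v hv => mem_verts.mpr ⟨e, he, hv⟩)
  have h2 : (d + 1) * (verts J).card ≤ 2 * J.card := by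
    refine le_trans ?_ (handshake J)
    rw [mul_comm, ← smul_eq_mul, ← sum_const]
    exact (sum_le_sum (fun v hv => hc v hv)).trans
      (sum_le_sum_of_subset (subset_univ _))
  have hpos : (verts J).card ≠ 0 := by
    obtain ⟨e, he⟩ := hne
    exact card_ne_zero.mpr ⟨e.out.1, mem_verts.mpr ⟨e, he, e.out_fst_mem⟩⟩
  have h3 : (1 / q) ^ J.card ≤ (Fintype.card V : ℝ) ^ (verts J).card := by
    rw [one_div, inv_pow, inv_le_iff_one_le_mul₀' (by positivity)]
    exact h1
  have h4 := pow_lt_pow_left₀ hd (by positivity) hpos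
  have h5 := pow_le_pow_right₀ (one_le_one_div hq0 hq1) h2
  have h6 := pow_le_pow_left₀ (by positivity) h3 2
  rw [← pow_mul, ← pow_mul] at h4 h6
  rw [mul_comm J.card 2, mul_comm _ 2] at h6
  linarith

/-- the edges of an orientation -/
def edges (out : V → Finset V) : Finset (Sym2 V) :=
  univ.biUnion (fun v => (out v).image (fun u => s(v, u)))

lemma mem_edges {out : V → Finset V} {e : Sym2 V} :
    e ∈ edges out ↔ ∃ v, ∃ u ∈ out v, e = s(v, u) := by
  simp only [edges, mem_biUnion, mem_univ, true_and, mem_image]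
  exact ⟨fun ⟨v, u, h1, h2⟩ => ⟨v, u, h1, h2.symm⟩, fun ⟨v, u, h1, h2⟩ => ⟨v, u, h1, h2.symm⟩⟩

lemma edges_density {out : V → Finset V} {d : ℕ} (hd : ∀ v, (out v).card ≤ d)
    (I : Finset (Sym2 V)) (hI : I ⊆ edges out) : I.card ≤ d * (verts I).card := by
  have : I ⊆ (verts I).biUnion (fun v => (out v).image (fun u => s(v, u))) := by
    intro e he
    obtain ⟨v, u, hu, rfl⟩ := mem_edges.mp (hI he)
    exact mem_biUnion.mpr ⟨v, mem_verts.mpr ⟨_, he, by simp⟩, mem_image_of_mem _ hu⟩
  refine (card_le_card this).trans (card_biUnion_le.trans ?_)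
  rw [mul_comm, ← smul_eq_mul, ← sum_const]
  exact sum_le_sum (fun v _ => card_image_le.trans (hd v))

lemma cov_dense [Nonempty V] {p q R : ℝ} (hq0 : 0 < q) (hqp : 256 * q ≤ p) (hp1 : p ≤ 1) {d : ℕ}
    (hd1 : 1 ≤ d) (hR : (1 / q) ^ d = R) (hn : R ^ 12 ≤ Fintype.card V)
    (H : Finset (Sym2 V)) (hloop : ∀ e ∈ H, ¬ e.IsDiag) (hs : Spread (Perm V) q H)
    (out : V → Finset V) (hd : ∀ v, (out v).card ≤ d) (hH : ∀ v, ∀ u ∈ out v, s(v, u) ∈ H) :
    Cov (Perm V) p 204 (edges out) := by
  classical
  set n := Fintype.card V with hnn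
  have hp0 : 0 < p := by linarith
  have hq256 : 256 ≤ 1 / q := by rw [le_div_iff₀ hq0]; linarith
  have hR1 : 256 ≤ R := by
    rw [← hR]
    exact hq256.trans (le_self_pow₀ (by linarith) (by omega))
  have hR0 : 0 < R := by linarith
  have hdR : (d : ℝ) + 1 ≤ R := by
    have h1 : ((d + 1 : ℕ) : ℝ) ≤ 2 ^ d := by exact_mod_cast Nat.lt_two_pow_self
    rw [← hR]
    push_cast at h1
    exact h1.trans (pow_le_pow_left₀ (by norm_num) (by linarith) d)
  have hpR : (1 / p) ^ d ≤ R := by
    rw [← hR]
    exact pow_le_pow_left₀ (by positivity) (one_div_le_one_div_of_le hq0 (by linarith)) d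
  have hsub : edges out ⊆ H := by
    intro e he
    obtain ⟨v, u, hu, rfl⟩ := mem_edges.mp he
    exact hH v u hu
  have hn0 : (0 : ℝ) < n := lt_of_lt_of_le (by positivity) hn
  let τ : ℕ := ⌈R ^ 4⌉₊
  have hτ1 : R ^ 4 ≤ τ := Nat.le_ceil _
  have hR4 : 256 * R ^ 3 ≤ R ^ 4 := by
    have : 0 < R ^ 3 := by positivity
    nlinarith
  have hR3 : 256 * R ^ 2 ≤ R ^ 3 := by
    have : 0 < R ^ 2 := by positivity
    nlinarith
  have hR2 : 256 * R ≤ R ^ 2 := by nlinarith
  have hτ2 : (τ : ℝ) ≤ 2 * R ^ 4 := by
    have := Nat.ceil_lt_add_one (a := R ^ 4) (by positivity)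
    simp only [τ]
    linarith
  let deg : V → ℕ := fun v => (univ.filter (fun u => s(v, u) ∈ edges out)).card
  let U : Finset V := univ.filter (fun v => τ < deg v)
  have hU : (U.card : ℝ) * R ^ 3 ≤ 2 * n := by
    have h1 : U.card * τ ≤ 2 * (d * n) := by
      have h2 := handshake (edges out)
      have h3 := (edges_density hd _ subset_rfl).trans
        (Nat.mul_le_mul_left d (card_le_univ (verts (edges out))))
      refine le_trans ?_ (h2.trans (Nat.mul_le_mul_left 2 h3))
      rw [← smul_eq_mul, ← sum_const]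
      exact (sum_le_sum (fun v hv => (mem_filter.mp hv).2.le)).trans
        (sum_le_sum_of_subset (subset_univ _))
    have h2 : (U.card : ℝ) * τ ≤ 2 * (d * n) := by exact_mod_cast h1
    have h3 : (U.card : ℝ) * R ^ 4 ≤ U.card * τ :=
      mul_le_mul_of_nonneg_left hτ1 (Nat.cast_nonneg _)
    have h4 : (d : ℝ) * n ≤ R * n := mul_le_mul_of_nonneg_right (by linarith) hn0.le
    apply le_of_mul_le_mul_right _ hR0
    nlinarith
  have hU0 : (0 : ℝ) ≤ U.card := Nat.cast_nonneg _
  -- small piece
  have hA : Cov (Perm V) p 2 (edges (fun v => if v ∈ U then out v else ∅)) := by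
    apply cov_two_of_phi hp0 hp1
    apply phi_small hp0 hp1 hpR _ (edges_density (by
      intro v; split_ifs
      · exact hd v
      · simp)) (U ∪ U.biUnion out)
    · intro w hw
      obtain ⟨e, he, hwe⟩ := mem_verts.mp hw
      obtain ⟨v, u, hu, rfl⟩ := mem_edges.mp he
      split_ifs at hu with hv
      · rcases Sym2.mem_iff.mp hwe with rfl | rfl
        · exact mem_union_left _ hv
        · exact mem_union_right _ (mem_biUnion.mpr ⟨v, hv, hu⟩)
      · simp at hu
    · have h1 : (U ∪ U.biUnion out).card ≤ U.card + U.card * d := by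
        refine (card_union_le _ _).trans (Nat.add_le_add_left (card_biUnion_le.trans ?_) _)
        rw [← smul_eq_mul, ← sum_const]
        exact sum_le_sum (fun v _ => hd v)
      have h2 : ((U ∪ U.biUnion out).card : ℝ) ≤ U.card * R := by
        have : ((U ∪ U.biUnion out).card : ℝ) ≤ U.card + U.card * d := by exact_mod_cast h1
        nlinarith
      have h3 : ((U ∪ U.biUnion out).card : ℝ) * R ≤ U.card * R * R :=
        mul_le_mul_of_nonneg_right h2 hR0.le
      have h4 : (U.card : ℝ) * (256 * R ^ 2) ≤ U.card * R ^ 3 :=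
        mul_le_mul_of_nonneg_left hR3 hU0
      rw [← hnn]
      nlinarith
  -- low degree piece
  have hB : Cov (Perm V) p 2 (edges (fun v => if v ∈ U then ∅ else out v \ U)) := by
    have hsubB : edges (fun v => if v ∈ U then ∅ else out v \ U) ⊆ edges out := by
      intro e he
      obtain ⟨v, u, hu, rfl⟩ := mem_edges.mp he
      split_ifs at hu with hv
      · simp at hu
      · exact mem_edges.mpr ⟨v, u, (mem_sdiff.mp hu).1, rfl⟩
    apply cov_two_of_phi hp0 hp1
    apply phi_lowdeg hp0 hp1 hpR _ (fun e he => hloop e (hsub (hsubB he))) (edges_density (by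
      intro v; split_ifs
      · simp
      · exact (card_le_card sdiff_subset).trans (hd v))) τ
    · intro v
      by_cases hv : v ∈ U
      · rw [filter_eq_empty_iff.mpr]
        · simp
        · intro u _ he
          obtain ⟨a, b, hb, hab⟩ := mem_edges.mp he
          split_ifs at hb with ha
          · simp at hb
          · rcases Sym2.eq_iff.mp hab with ⟨rfl, rfl⟩ | ⟨rfl, rfl⟩
            · exact ha hv
            · exact (mem_sdiff.mp hb).2 hv
      · simp only [U, mem_filter, mem_univ, true_and, not_lt] at hv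
        refine le_trans (card_le_card ?_) hv
        intro u hu
        simp only [mem_filter, mem_univ, true_and] at hu ⊢
        exact hsubB hu
    · rw [← hnn]
      refine le_trans ?_ hn
      have h1 : (τ : ℝ) ^ 2 ≤ (2 * R ^ 4) ^ 2 := pow_le_pow_left₀ (by positivity) hτ2 2
      have h2 : 3888 * R ^ 2 * (τ : ℝ) ^ 2 ≤ 3888 * R ^ 2 * (2 * R ^ 4) ^ 2 :=
        mul_le_mul_of_nonneg_left h1 (by positivity)
      have h3 : R ^ 10 * 65536 ≤ R ^ 10 * R ^ 2 :=
        mul_le_mul_of_nonneg_left (by nlinarith) (by positivity)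
      have h4 : 0 < R ^ 10 := by positivity
      nlinarith
  -- hub pieces
  have hn4 : 4 * R ^ 4 ≤ n := by
    refine le_trans ?_ hn
    have h1 : (4 : ℝ) ≤ R ^ 8 := le_trans (by linarith) (le_self_pow₀ (by linarith) (by norm_num))
    have h2 : 0 < R ^ 4 := by positivity
    nlinarith
  have hn50 : 50 ≤ n := by
    have : (50 : ℝ) ≤ n := by linarith
    exact_mod_cast this
  obtain ⟨c, hc1, hc2⟩ := exists_split (univ : Finset V) 100 (n / 50) (by
    rw [card_univ, ← hnn]; omega)
  have hC : Cov (Perm V) p ((range 100).card * 2)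
      (edges (fun v => if v ∈ U then ∅ else out v ∩ U)) := by
    apply Cov.biUnion (range 100) (fun i => edges (fun v => if v ∉ U ∧ c v = i then out v ∩ U else ∅))
    · intro i _
      apply cov_hub hq0 hqp hp1 hR (by linarith) hR1 hn4 H hs
        (univ.filter (fun v => v ∉ U ∧ c v = i)) U _ _ _ (fun v => out v ∩ U)
      · intro a _; exact inter_subset_right
      · intro a _; exact (card_le_card inter_subset_left).trans (hd a)
      · intro a _ u hu; exact hH a u (mem_inter.mp hu).1
      · intro e he
        obtain ⟨v, u, hu, rfl⟩ := mem_edges.mp he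
        split_ifs at hu with hv
        · exact ⟨v, by simpa using hv, u, hu, rfl⟩
        · simp at hu
      · rw [disjoint_left]
        intro v hv
        exact (mem_filter.mp hv).2.1
      · have h1 : (univ.filter (fun v => v ∉ U ∧ c v = i)).card ≤ n / 50 := by
          refine le_trans (card_le_card ?_) (hc2 i)
          intro v hv
          simp only [mem_filter, mem_univ, true_and] at hv ⊢
          exact hv.2
        omega
      · have h1 : (U.card : ℝ) * 4 ≤ U.card * R ^ 3 :=
          mul_le_mul_of_nonneg_left (by linarith) hU0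
        have : 2 * (U.card : ℝ) ≤ n := by linarith
        exact_mod_cast this
    · intro e he
      obtain ⟨v, u, hu, rfl⟩ := mem_edges.mp he
      split_ifs at hu with hv
      · simp at hu
      · exact ⟨c v, mem_range.mpr (hc1 v (mem_univ _)),
          mem_edges.mpr ⟨v, u, by simpa [hv] using hu, rfl⟩⟩
  refine ((hA.union hB).union hC).mono (by simp) ?_
  intro e he
  obtain ⟨v, u, hu, rfl⟩ := mem_edges.mp he
  simp only [mem_union]
  by_cases hv : v ∈ U
  · exact Or.inl (Or.inl (mem_edges.mpr ⟨v, u, by simpa [hv] using hu, rfl⟩))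
  · by_cases huU : u ∈ U
    · exact Or.inr (mem_edges.mpr ⟨v, u, by simp [hv, hu, huU], rfl⟩)
    · exact Or.inl (Or.inr (mem_edges.mpr ⟨v, u, by simp [hv, hu, huU], rfl⟩))

theorem cov_of_spread [Nonempty V] {p q : ℝ} (hq0 : 0 < q) (hqp : 256 * q ≤ p) (hp1 : p ≤ 1)
    (H : Finset (Sym2 V)) (hloop : ∀ e ∈ H, ¬ e.IsDiag) (hs : Spread (Perm V) q H) :
    Cov (Perm V) p 9792 H := by
  classical
  set n := Fintype.card V with hnn
  have hn1 : (1 : ℝ) ≤ n := by rw [hnn]; exact_mod_cast Fintype.card_pos
  have hp0 : 0 < p := by linarith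
  have hq256 : 256 ≤ 1 / q := by rw [le_div_iff₀ hq0]; linarith
  obtain ⟨d, hd1, hd2⟩ := exists_nat_pow_near (x := (n : ℝ) ^ 2) (y := 1 / q)
    (one_le_pow₀ hn1) (by linarith)
  obtain ⟨out, col, h1, h2, h3, h4, h5⟩ := exists_orient d H hloop
    (spread_degenerate hq0 (by linarith) hs d hd2)
  have hsplit : ∀ v, ∃ c : V → ℕ, (∀ x ∈ out v, c x < 48) ∧
      ∀ i, ((out v).filter (fun x => c x = i)).card ≤ (d + 47) / 48 :=
    fun v => exists_split (out v) 48 _ ((h1 v).trans (by omega))
  choose c hc1 hc2 using hsplit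
  have key : ∀ i ∈ range 48, Cov (Perm V) p 204
      (edges (fun v => (out v).filter (fun x => c v x = i))) := by
    intro i _
    by_cases hd : d ≤ 48
    · have hle : ∀ v, ((out v).filter (fun x => c v x = i)).card ≤ 1 :=
        fun v => (hc2 v i).trans (by omega)
      have hh : ∀ v, ∃ w, ∀ u ∈ (out v).filter (fun x => c v x = i), u = w := by
        intro v
        rcases ((out v).filter (fun x => c v x = i)).eq_empty_or_nonempty with h | ⟨w, hw⟩
        · exact ⟨v, by simp [h]⟩
        · exact ⟨w, fun u hu => card_le_one.mp (hle v) u hu w hw⟩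
      choose h hh using hh
      refine (Cov.biUnion (k := 2) (range 49) (fun j => edges (fun v =>
        if col v = j then (out v).filter (fun x => c v x = i) else ∅)) _ ?_ ?_).mono
        (by simp) subset_rfl
      · intro j _
        apply cov_two_of_phi hp0 hp1
        apply phi_star (q := q) (div_nonneg (by linarith) hp0.le) hq0.le _ _ (hs.mono _)
          (univ.filter (fun v => col v = j ∧ h v ∈ out v)) h
        · intro a ha hha
          simp only [mem_filter, mem_univ, true_and] at ha hha
          exact h5 a (h a) (h2 a _ ha.2) (ha.1.trans hha.1.symm)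
        · intro e he
          obtain ⟨v, u, hu, rfl⟩ := mem_edges.mp he
          split_ifs at hu with hv
          · obtain rfl := hh v u hu
            exact ⟨v, by simpa [hv] using (mem_filter.mp hu).1, rfl⟩
          · simp at hu
        · rw [div_mul_eq_mul_div, div_le_div_iff₀ hp0 (by norm_num)]
          nlinarith
        · intro e he
          obtain ⟨v, u, hu, rfl⟩ := mem_edges.mp he
          split_ifs at hu with hv
          · exact h2 v u (mem_filter.mp hu).1
          · simp at hu
      · intro e he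
        obtain ⟨v, u, hu, rfl⟩ := mem_edges.mp he
        exact ⟨col v, mem_range.mpr (by have := h4 v; omega),
          mem_edges.mpr ⟨v, u, by simpa using hu, rfl⟩⟩
    · apply cov_dense hq0 hqp hp1 (d := (d + 47) / 48) (by omega) rfl _ H hloop hs _
        (fun v => hc2 v i) (fun v u hu => h2 v u (mem_filter.mp hu).1)
      rw [← hnn, ← pow_le_pow_iff_left₀ (n := 4) (by positivity) (by positivity) (by norm_num),
        ← pow_mul, ← pow_mul]
      have h6 := pow_le_pow_left₀ (by positivity) hd1 2
      rw [← pow_mul, ← pow_mul] at h6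
      exact (pow_le_pow_right₀ (by linarith) (by omega)).trans h6
  refine (Cov.biUnion (range 48) _ H key ?_).mono (by simp) subset_rfl
  intro e he
  obtain ⟨v, u, hu, rfl⟩ := h3 e he
  exact ⟨c v u, mem_range.mpr (hc1 v u hu), mem_edges.mpr ⟨v, u, by simp [hu], rfl⟩⟩

end Assembly

end Crest.Agent.R52
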