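import Mathlib
import Crest.Agent.R52.Selector

/-!
Rounding fractional covers to integral covers at the loss of a constant factor.
-/

set_option autoImplicit false

namespace Crest.Agent.R52

open Finset

section FracInt

variable {α : Type} [Fintype α] [DecidableEq α]

lemma expect_prod_on {κ : Type} [Fintype κ] (π : κ → ℝ) (hπ1 : ∑ j, π j = 1) (φ : κ → ℝ)
    (S : Finset α) :
    ∑ l : α → κ, (∏ x, π (l x)) * ∏ x ∈ S, φ (l x) = (∑ j, π j * φ j) ^ S.card := by
  classical
  have h1 := Fintype.prod_sum (R := ℝ) (κ := fun _ : α => κ)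
    (fun x j => π j * if x ∈ S then φ j else 1)
  have h2 : ∏ x, ∑ j, (π j * if x ∈ S then φ j else 1) = (∑ j, π j * φ j) ^ S.card := by
    rw [← prod_mul_prod_compl S]
    have : ∏ x ∈ Sᶜ, ∑ j, (π j * if x ∈ S then φ j else 1) = 1 := by
      apply prod_eq_one
      intro x hx
      rw [mem_compl] at hx
      simp [hx, hπ1]
    rw [this, mul_one, ← prod_const]
    apply prod_congr rfl
    intro x hx
    simp [hx]
  rw [← h2, h1]
  apply sum_congr rfl
  intro l _
  rw [prod_mul_distrib, prod_ite_mem, univ_inter]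

lemma exists_labels (p : ℝ) (hp : 0 < p) :
    ∃ (s : ℕ) (π : Fin (s + 1) → ℝ), (∀ j, 0 ≤ π j) ∧ ∑ j, π j = 1 ∧
      (∀ j : Fin (s + 1), (j : ℕ) < s → 256 * 8 ^ (j : ℕ) * p ≤ π j) ∧
      (∀ j : Fin (s + 1), π j ≤ 256 * 8 ^ (j : ℕ) * p) := by
  classical
  let a : ℕ → ℝ := fun j => 256 * 8 ^ j * p
  have ha0 : ∀ j, 0 ≤ a j := fun j => by positivity
  have hex : ∃ s, 1 < ∑ j ∈ range (s + 1), a j := by
    obtain ⟨n, hn⟩ := pow_unbounded_of_one_lt (1 / (256 * p)) (by norm_num : (1 : ℝ) < 8)
    refine ⟨n, ?_⟩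
    have h1 : a n ≤ ∑ j ∈ range (n + 1), a j :=
      single_le_sum (fun j _ => ha0 j) (mem_range.mpr (Nat.lt_succ_self n))
    rw [div_lt_iff₀ (by positivity)] at hn
    have : 1 < a n := by simp only [a]; linarith
    linarith
  let s := Nat.find hex
  have hs1 : 1 < ∑ j ∈ range (s + 1), a j := Nat.find_spec hex
  have hs2 : ∑ j ∈ range s, a j ≤ 1 := by
    rcases Nat.eq_zero_or_pos s with h | h
    · simp [h]
    · have := Nat.find_min hex (m := s - 1) (by omega)
      rw [show s - 1 + 1 = s by omega] at this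
      exact not_lt.mp this
  rw [sum_range_succ] at hs1
  refine ⟨s, fun j => if (j : ℕ) < s then a j else 1 - ∑ j ∈ range s, a j, ?_, ?_, ?_, ?_⟩
  · intro j
    dsimp only
    split_ifs
    · exact ha0 _
    · linarith
  · rw [Fin.sum_univ_castSucc]
    simp only [Fin.val_castSucc, Fin.is_lt, if_true, Fin.val_last, lt_irrefl, if_false]
    rw [Fin.sum_univ_eq_sum_range a]
    ring
  · intro j hj
    simp [hj, a]
  · intro j
    dsimp only
    split_ifs with h
    · exact le_rfl
    · have : (j : ℕ) = s := by have := j.2; omega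
      rw [this]
      change _ ≤ a s
      linarith

theorem frac_to_int (F : Finset (Finset α)) (hempty : ∅ ∉ F) (r p : ℝ) (hp0 : 0 ≤ p)
    (hpr : 2 ^ 20 * p ≤ r) (g : Finset α → ℝ) (hg : ∀ S, 0 ≤ g S)
    (hcov : ∀ H ∈ F, 1 ≤ ∑ S ∈ H.powerset, g S)
    (hcost : ∑ S : Finset α, g S * r ^ S.card ≤ 1 / 2) :
    ∃ G : Finset (Finset α), (∀ H ∈ F, ∃ S ∈ G, S ⊆ H) ∧ ∑ S ∈ G, p ^ S.card ≤ 1 / 2 := by
  classical
  by_contra hcon
  have hns : ∀ G : Finset (Finset α), (∀ H ∈ F, ∃ S ∈ G, S ⊆ H) →
      1 / 2 < ∑ S ∈ G, p ^ S.card := by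
    intro G hG
    by_contra h
    exact hcon ⟨G, hG, not_lt.mp h⟩
  clear hcon
  have hr0 : 0 ≤ r := le_trans (by positivity) hpr
  rcases hp0.eq_or_lt with hp | hp
  · have := hns F (fun H hH => ⟨H, hH, subset_rfl⟩)
    have h2 : ∑ S ∈ F, p ^ S.card = 0 := by
      apply sum_eq_zero
      intro S hS
      rw [← hp]
      apply zero_pow
      intro h
      rw [card_eq_zero] at h
      exact hempty (h ▸ hS)
    linarith
  obtain ⟨s, π, hπ0, hπ1, hπp, hπle⟩ := exists_labels p hp
  have hg0 : g ∅ ≤ 1 / 2 := by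
    have := single_le_sum (f := fun S : Finset α => g S * r ^ S.card)
      (fun S _ => mul_nonneg (hg S) (pow_nonneg hr0 _)) (mem_univ ∅)
    simp only [card_empty, pow_zero, mul_one] at this
    linarith
  let P : Finset α → Finset (Finset α) := fun H => H.powerset.erase ∅
  let M : Finset α → ℝ := fun H => ∑ S ∈ P H, g S
  have hM0 : ∀ H, 0 ≤ M H := fun H => sum_nonneg (fun S _ => hg S)
  have hM : ∀ H ∈ F, 1 / 2 ≤ M H := by
    intro H hH
    have h1 := add_sum_erase H.powerset g (empty_mem_powerset H)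
    have h2 := hcov H hH
    simp only [M, P]
    linarith
  let lam : Finset α → α → ℝ := fun H x =>
    (∑ S ∈ P H, if x ∈ S then g S / S.card else 0) / M H
  have hlam0 : ∀ H x, 0 ≤ lam H x := by
    intro H x
    apply div_nonneg _ (hM0 H)
    apply sum_nonneg
    intro S _
    split_ifs
    · exact div_nonneg (hg S) (Nat.cast_nonneg _)
    · exact le_rfl
  have hsupp : ∀ H ∈ F, ∀ x, x ∉ H → lam H x = 0 := by
    intro H _ x hx
    have : (∑ S ∈ P H, if x ∈ S then g S / S.card else 0) = 0 := by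
      apply sum_eq_zero
      intro S hS
      have : x ∉ S := fun h => hx (mem_powerset.mp (mem_of_mem_erase hS) h)
      simp [this]
    simp [lam, this]
  have hid : ∀ H (f : α → ℝ), ∑ x, lam H x * f x =
      (∑ S ∈ P H, g S / S.card * ∑ x ∈ S, f x) / M H := by
    intro H f
    simp only [lam, div_mul_eq_mul_div _ (M H)]
    rw [← sum_div]
    congr 1
    simp only [sum_mul]
    rw [sum_comm]
    apply sum_congr rfl
    intro S _
    simp only [ite_mul, zero_mul]
    rw [sum_ite_mem, univ_inter, mul_sum]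
  have hPcard : ∀ H, ∀ S ∈ P H, (0 : ℝ) < S.card := by
    intro H S hS
    have := (mem_erase.mp hS).1
    exact_mod_cast card_pos.mpr (nonempty_iff_ne_empty.mpr this)
  have hsum : ∀ H ∈ F, ∑ x, lam H x ≤ 1 := by
    intro H hH
    have h1 := hid H (fun _ => 1)
    simp only [mul_one, sum_const, nsmul_eq_mul] at h1
    rw [h1, div_le_one (by linarith [hM H hH])]
    apply le_of_eq
    apply sum_congr rfl
    intro S hS
    have := hPcard H S hS
    field_simp
  have hbad := selector F lam hlam0 hsupp hsum π hπ0 hπ1 p hp.le hπp hns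
  let W : (α → Fin (s + 1)) → ℝ := fun l => ∏ x, π (l x)
  have hW0 : ∀ l, 0 ≤ W l := fun l => prod_nonneg (fun x _ => hπ0 _)
  have hW1 : ∑ l : α → Fin (s + 1), W l = 1 := by
    have h1 := Fintype.prod_sum (R := ℝ) (κ := fun _ : α => Fin (s + 1)) (fun _ j => π j)
    simp only [hπ1, prod_const_one] at h1
    exact h1.symm
  let φ : Fin (s + 1) → ℝ := fun j => 256 / 16 ^ (j : ℕ)
  have hφ0 : ∀ j, 0 ≤ φ j := fun j => by positivity
  let Y : (α → Fin (s + 1)) → ℝ := fun l =>
    ∑ S ∈ (univ : Finset (Finset α)).erase ∅, g S * ∏ x ∈ S, φ (l x)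
  have hY0 : ∀ l, 0 ≤ Y l := fun l =>
    sum_nonneg (fun S _ => mul_nonneg (hg S) (prod_nonneg (fun x _ => hφ0 _)))
  have hgood : ∀ l, ¬ Bad F lam l → 1 / 4 ≤ Y l := by
    intro l hl
    simp only [Bad, not_forall, not_exists, not_and, not_lt] at hl
    obtain ⟨H, hH, hl⟩ := hl
    have h1 : ∑ x, lam H x * (l x : ℕ) ≤ 1 := by
      have e1 : ∀ x, lam H x * ((l x : ℕ) : ℝ) =
          ∑ j ∈ range s, if j < (l x : ℕ) then lam H x else 0 := by
        intro x
        rw [← sum_filter, sum_const, nsmul_eq_mul, mul_comm]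
        congr 2
        have : (range s).filter (fun j => j < (l x : ℕ)) = range (l x) := by
          ext j
          have := (l x).2
          simp only [mem_filter, mem_range]
          omega
        rw [this, card_range]
      simp only [e1]
      rw [sum_comm]
      have e2 : ∀ j ∈ range s, (∑ x, if j < (l x : ℕ) then lam H x else 0) ≤
          (1 / 2) ^ j * (1 / 2) := by
        intro j hj
        rw [← sum_filter]
        have := hl j (mem_range.mp hj)
        rw [← pow_succ, one_div, inv_pow, ← one_div, le_div_iff₀ (by positivity)]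
        linarith
      refine (sum_le_sum e2).trans ?_
      rw [← sum_mul]
      have := geom_half_le s
      linarith
    rw [hid H (fun x => ((l x : ℕ) : ℝ)), div_le_one (by linarith [hM H hH])] at h1
    have h2 : ∑ S ∈ P H, g S * ∏ x ∈ S, φ (l x) ≤ Y l := by
      apply sum_le_sum_of_subset_of_nonneg
      · exact erase_subset_erase _ (subset_univ _)
      · intro S _ _
        exact mul_nonneg (hg S) (prod_nonneg (fun x _ => hφ0 _))
    have h3 : ∀ S ∈ P H, g S - (g S / S.card * ∑ x ∈ S, ((l x : ℕ) : ℝ)) / 2 ≤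
        g S * ∏ x ∈ S, φ (l x) := by
      intro S hS
      have hc := hPcard H S hS
      have e : g S - (g S / S.card * ∑ x ∈ S, ((l x : ℕ) : ℝ)) / 2 =
          g S * (1 - (∑ x ∈ S, ((l x : ℕ) : ℝ)) / (2 * S.card)) := by
        field_simp
      rw [e]
      apply mul_le_mul_of_nonneg_left _ (hg S)
      have hs0 : 0 ≤ ∑ x ∈ S, ((l x : ℕ) : ℝ) := sum_nonneg (fun x _ => Nat.cast_nonneg _)
      by_cases hle : ∑ x ∈ S, (l x : ℕ) ≤ 2 * S.card
      · have e2 : ∏ x ∈ S, φ (l x) = 16 ^ (2 * S.card) / 16 ^ (∑ x ∈ S, (l x : ℕ)) := by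
          simp only [φ]
          rw [prod_div_distrib, prod_const, prod_pow_eq_pow_sum, pow_mul]
          norm_num
        have e3 : (1 : ℝ) ≤ ∏ x ∈ S, φ (l x) := by
          rw [e2, one_le_div (by positivity)]
          exact pow_le_pow_right₀ (by norm_num) hle
        have : 0 ≤ (∑ x ∈ S, ((l x : ℕ) : ℝ)) / (2 * S.card) := by positivity
        linarith
      · have e3 : (1 : ℝ) ≤ (∑ x ∈ S, ((l x : ℕ) : ℝ)) / (2 * S.card) := by
          rw [one_le_div (by positivity)]
          have : 2 * S.card ≤ ∑ x ∈ S, (l x : ℕ) := by omega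
          exact_mod_cast this
        have : 0 ≤ ∏ x ∈ S, φ (l x) := prod_nonneg (fun x _ => hφ0 _)
        linarith
    have h4 := sum_le_sum h3
    rw [sum_sub_distrib, ← sum_div] at h4
    have h5 := hM H hH
    simp only [M] at h5 h1
    linarith
  have hEY : ∑ l, W l * Y l ≤ 1 / 16 := by
    simp only [Y, mul_sum]
    rw [sum_comm]
    have hmom : ∑ j, π j * φ j ≤ r / 8 := by
      have e1 : ∀ j : Fin (s + 1), π j * φ j ≤ (1 / 2) ^ (j : ℕ) * (2 ^ 16 * p) := by
        intro j
        refine (mul_le_mul_of_nonneg_right (hπle j) (hφ0 j)).trans (le_of_eq ?_)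
        have h5 : (16 : ℝ) ^ (j : ℕ) = 2 ^ (j : ℕ) * 8 ^ (j : ℕ) := by rw [← mul_pow]; norm_num
        simp only [φ, h5, one_div, inv_pow]
        field_simp
        norm_num
      refine (sum_le_sum (fun j _ => e1 j)).trans ?_
      rw [← sum_mul, Fin.sum_univ_eq_sum_range (fun j => ((1 : ℝ) / 2) ^ j)]
      have := geom_half_le (s + 1)
      nlinarith
    have hmom0 : 0 ≤ ∑ j, π j * φ j := sum_nonneg (fun j _ => mul_nonneg (hπ0 j) (hφ0 j))
    have e2 : ∀ S ∈ (univ : Finset (Finset α)).erase ∅,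
        ∑ l : α → Fin (s + 1), W l * (g S * ∏ x ∈ S, φ (l x)) ≤ g S * r ^ S.card * (1 / 8) := by
      intro S hS
      have hc : S.card ≠ 0 := by
        have := (mem_erase.mp hS).1
        exact card_ne_zero.mpr (nonempty_iff_ne_empty.mpr this)
      simp only [mul_left_comm (W _) (g S)]
      rw [← mul_sum, mul_assoc]
      apply mul_le_mul_of_nonneg_left _ (hg S)
      simp only [W]
      rw [expect_prod_on π hπ1 φ S]
      refine (pow_le_pow_left₀ hmom0 hmom _).trans ?_
      rw [div_eq_mul_one_div, mul_pow]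
      apply mul_le_mul_of_nonneg_left _ (pow_nonneg hr0 _)
      exact pow_le_of_le_one (by norm_num) (by norm_num) hc
    refine (sum_le_sum e2).trans ?_
    rw [← sum_mul]
    have : ∑ S ∈ (univ : Finset (Finset α)).erase ∅, g S * r ^ S.card ≤
        ∑ S : Finset α, g S * r ^ S.card :=
      sum_le_sum_of_subset_of_nonneg (subset_univ _)
        (fun S _ _ => mul_nonneg (hg S) (pow_nonneg hr0 _))
    linarith
  have hsplit := sum_filter_add_sum_filter_not univ
    (fun l : α → Fin (s + 1) => Bad F lam l) W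
  have hlow : (∑ l ∈ univ.filter (fun l : α → Fin (s + 1) => ¬ Bad F lam l), W l) * (1 / 4) ≤
      ∑ l, W l * Y l := by
    rw [sum_mul, sum_filter]
    apply sum_le_sum
    intro l _
    split_ifs with h
    · exact mul_nonneg (hW0 l) (hY0 l)
    · exact mul_le_mul_of_nonneg_left (hgood l h) (hW0 l)
  simp only [W] at hsplit hlow hEY hW1
  linarith

end FracInt

end Crest.Agent.R52
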