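import Mathlib
import Crest.Agent.R52.FracInt
import Crest.Agent.R52.Bern

/-!
Discrete convexity: sets not inside a union of boundedly many members of a large family are small.
-/

set_option autoImplicit false

namespace Crest.Agent.R52

open Finset

theorem discrete_convexity {α : Type} [Fintype α] [DecidableEq α] (p : ℝ) (hp0 : 0 < p)
    (hp1 : p < 1) (D : Finset (Finset α)) (k : ℕ) (hk : 2 * 1048576 ≤ k)
    (hD : 1 - 1 / 4194304 ≤ ∑ S ∈ D, wt p S) :
    ∃ G : Finset (Finset α),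
      (∀ S : Finset α,
        (∀ f : Fin k → Finset α, (∀ i, f i ∈ D) → ¬ S ⊆ Finset.univ.biUnion f) →
          ∃ I ∈ G, I ⊆ S) ∧
      ∑ I ∈ G, p ^ I.card ≤ 1 / 2 := by
  classical
  obtain ⟨m, hm⟩ : ∃ m : ℕ, m = 1048576 := ⟨_, rfl⟩
  rw [← hm] at hk
  have hmR : (m : ℝ) = 1048576 := by rw [hm]; norm_num
  obtain ⟨A, hA1, hA2⟩ := exists_union_family hp0.le hp1.le D m
  have hq0 : 0 < (1 - p) ^ m := pow_pos (by linarith) m
  have hq1 : (1 - p) ^ m < 1 := pow_lt_one₀ (by linarith) (by linarith) (by omega)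
  have hA : 2 / 3 ≤ ∑ S ∈ A, wt (1 - (1 - p) ^ m) S := by
    refine le_trans ?_ hA1
    have h1 : (1 - 1 / 4194304 : ℝ) ^ m ≤ (∑ S ∈ D, wt p S) ^ m :=
      pow_le_pow_left₀ (by norm_num) hD m
    have h2 := one_add_mul_le_pow (a := (-(1 / 4194304) : ℝ)) (by norm_num) m
    rw [hmR, ← sub_eq_add_neg 1 (1 / 4194304 : ℝ)] at h2
    linarith
  obtain ⟨g, hg0, hgc, hgs⟩ := exists_frac_cover (p := 1 - (1 - p) ^ m) (by linarith)
    (by linarith) A hA
  have hAne : A.Nonempty := by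
    by_contra h
    rw [not_nonempty_iff_eq_empty] at h
    rw [h, sum_empty] at hA
    linarith
  have hDne : D.Nonempty := by
    by_contra h
    rw [not_nonempty_iff_eq_empty] at h
    rw [h, sum_empty] at hD
    linarith
  let F : Finset (Finset α) := univ.filter (fun U => ∀ S ∈ A, ∀ T ∈ A, ¬ U ⊆ S ∪ T)
  have hF : ∅ ∉ F := by
    obtain ⟨S, hS⟩ := hAne
    simp only [F, mem_filter, mem_univ, true_and, not_forall, not_not]
    exact ⟨S, hS, S, hS, empty_subset _⟩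
  have hpr : 2 ^ 20 * p ≤ (1 - (1 - p) ^ m) / (1 - (1 - (1 - p) ^ m)) := by
    rw [sub_sub_cancel, le_div_iff₀ hq0]
    have h1 := one_add_mul_le_pow (a := p) (by linarith) m
    have h2 : (1 + p) ^ m * (1 - p) ^ m ≤ 1 := by
      rw [← mul_pow]
      exact pow_le_one₀ (by nlinarith) (by nlinarith)
    rw [hmR] at h1
    nlinarith
  obtain ⟨G, hG1, hG2⟩ := frac_to_int F hF _ p hp0.le hpr g hg0
    (fun H hH => hgc H (mem_filter.mp hH).2) hgs
  refine ⟨G, fun U hU => hG1 U ?_, hG2⟩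
  simp only [F, mem_filter, mem_univ, true_and]
  intro S hS T hT hsub
  obtain ⟨L1, h11, h12, h13⟩ := hA2 S hS
  obtain ⟨L2, h21, h22, h23⟩ := hA2 T hT
  obtain ⟨d, hd⟩ := hDne
  set L := L1 ∪ L2 with hL
  have hLc : L.card ≤ k := (card_union_le _ _).trans (by omega)
  have hLD : L ⊆ D := union_subset h11 h21
  apply hU (fun i => if h : (i : ℕ) < L.card then (L.equivFin.symm ⟨i, h⟩ : Finset α) else d)
  · intro i
    split_ifs with h
    · exact hLD (L.equivFin.symm ⟨i, h⟩).2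
    · exact hd
  · intro x hx
    have hx2 : ∃ E ∈ L, x ∈ E := by
      rcases mem_union.mp (hsub hx) with h | h
      · obtain ⟨E, hE, hxE⟩ := mem_biUnion.mp (h13 h)
        exact ⟨E, mem_union_left _ hE, hxE⟩
      · obtain ⟨E, hE, hxE⟩ := mem_biUnion.mp (h23 h)
        exact ⟨E, mem_union_right _ hE, hxE⟩
    obtain ⟨E, hE, hxE⟩ := hx2
    rw [mem_biUnion]
    refine ⟨⟨(L.equivFin ⟨E, hE⟩ : ℕ), lt_of_lt_of_le (L.equivFin ⟨E, hE⟩).2 hLc⟩, mem_univ _, ?_⟩
    simp [hxE]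

end Crest.Agent.R52
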