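import Mathlib
import Crest.Prelude.Def_CopyThreshold
import Crest.Agent.R52.Assembly
import Crest.Agent.R52.FracInt

/-!
Translation between the finite-set model and the random graph of the statement.
-/

set_option autoImplicit false

namespace Crest.Agent.R52

open Finset Pointwise Equiv Crest.CombinatoricsR.RandomGraph

section General

variable {Γ E : Type} [Group Γ] [Fintype Γ] [MulAction Γ E] [Fintype E] [DecidableEq E]

lemma good_one (F : Finset E) : Good Γ 1 F := by
  classical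
  unfold Good
  have h1 := single_le_sum (s := univ.filter (fun G : Finset E => ∃ γ : Γ, γ • F ⊆ G))
    (f := wt (1 : ℝ)) (fun G _ => wt_nonneg zero_le_one le_rfl G) (a := univ) (by simp)
  have h2 : wt (1 : ℝ) (univ : Finset E) = 1 := by simp [wt]
  linarith

lemma good_empty (p : ℝ) : Good Γ p (∅ : Finset E) := by
  classical
  unfold Good
  simp only [smul_finset_empty, empty_subset, exists_const, filter_true, sum_wt]
  norm_num

lemma exists_spread_cover (H : Finset E) (hH : H.Nonempty) :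
    ∃ q : ℝ, 0 < q ∧ q ≤ 1 ∧ Spread Γ q H ∧ ∃ G : Finset (Finset E),
      (∀ A : Finset E, (∃ γ : Γ, γ • H ⊆ A) → ∃ S ∈ G, S ⊆ A) ∧
        ∑ S ∈ G, (q / 2 ^ 21) ^ S.card ≤ 1 / 2 := by
  classical
  set N : ℝ := (Fintype.card Γ : ℝ) with hN
  have hN0 : 0 < N := by rw [hN]; exact_mod_cast Fintype.card_pos
  let f : Finset E → ℝ := fun I => ((univ.filter (fun γ : Γ => I ⊆ γ • H)).card : ℝ) / N
  have hf0 : ∀ I, 0 ≤ f I := fun I => by positivity
  have hf1 : ∀ I, f I ≤ 1 := by
    intro I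
    simp only [f]
    rw [div_le_one hN0, hN]
    exact_mod_cast card_le_univ _
  obtain ⟨I0, hI0, hmax⟩ := exists_max_image (univ.filter (fun I : Finset E => I.Nonempty))
    (fun I => f I ^ ((I.card : ℝ)⁻¹)) ⟨H, by simpa using hH⟩
  simp only [mem_filter, mem_univ, true_and] at hI0 hmax
  obtain ⟨q, hq⟩ : ∃ q, q = f I0 ^ ((I0.card : ℝ)⁻¹) := ⟨_, rfl⟩
  rw [← hq] at hmax
  have hc0 : I0.card ≠ 0 := card_ne_zero.mpr hI0
  have hqI : q ^ I0.card = f I0 := hq ▸ Real.rpow_inv_natCast_pow (hf0 _) hc0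
  have hq0 : 0 < q := by
    refine lt_of_lt_of_le (Real.rpow_pos_of_pos ?_ _) (hmax H hH)
    apply div_pos _ hN0
    exact_mod_cast card_pos.mpr ⟨1, by simp⟩
  have hq1 : q ≤ 1 := hq ▸ Real.rpow_le_one (hf0 _) (hf1 _) (by positivity)
  clear hq
  refine ⟨q, hq0, hq1, ?_, ?_⟩
  · intro I
    rw [← hN, ← div_le_iff₀ hN0]
    change f I ≤ _
    rcases I.eq_empty_or_nonempty with rfl | hI
    · simpa using hf1 ∅
    · rw [← Real.rpow_inv_natCast_pow (hf0 I) (card_ne_zero.mpr hI)]
      exact pow_le_pow_left₀ (by have := hf0 I; positivity) (hmax I hI) _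
  · obtain ⟨c, hc⟩ : ∃ c : ℝ, c = ((univ.filter (fun γ : Γ => I0 ⊆ γ • H)).card : ℝ) := ⟨_, rfl⟩
    have hcq : c = q ^ I0.card * N := by
      rw [hqI, hc]; simp only [f]; field_simp
    have hc0' : 0 < c := by rw [hcq]; exact mul_pos (pow_pos hq0 _) hN0
    clear hqI hmax
    obtain ⟨G, hG1, hG2⟩ := frac_to_int (univ.filter (fun A : Finset E => ∃ γ : Γ, γ • H ⊆ A))
      (by
        simp only [mem_filter, mem_univ, true_and, subset_empty, smul_finset_eq_empty,
          exists_const]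
        exact hH.ne_empty) (q / 2) (q / 2 ^ 21) (by positivity) (le_of_eq (by ring))
      (fun J => ((univ.filter (fun γ : Γ => γ • I0 = J)).card : ℝ) / c) (fun J => by positivity)
      (by
        intro A hA
        obtain ⟨δ, hδ⟩ := (mem_filter.mp hA).2
        rw [← sum_div, one_le_div hc0', ← Nat.cast_sum, sum_card_fiberwise_eq_card_filter, hc]
        apply Nat.cast_le.mpr
        apply card_le_card_of_injOn (fun γ => δ * γ⁻¹)
        · intro γ hγ
          simp only [coe_filter, mem_univ, true_and, Set.mem_ofPred_eq, mem_powerset] at hγ ⊢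
          refine Subset.trans ?_ hδ
          rw [mul_smul, smul_finset_subset_smul_finset_iff]
          exact subset_smul_finset_iff.mp hγ
        · intro a _ b _ h
          exact inv_injective (mul_left_cancel h))
      (by
        have h1 : ∀ J : Finset E, ((univ.filter (fun γ : Γ => γ • I0 = J)).card : ℝ) / c *
            (q / 2) ^ J.card = (∑ γ ∈ univ.filter (fun γ : Γ => γ • I0 = J),
              (q / 2) ^ I0.card) / c := by
          intro J
          rw [div_mul_eq_mul_div, ← nsmul_eq_mul, ← sum_const]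
          congr 1
          apply sum_congr rfl
          intro γ hγ
          rw [← (mem_filter.mp hγ).2, card_smul_finset]
        simp only [h1]
        rw [← sum_div, sum_fiberwise, sum_const, card_univ, nsmul_eq_mul, ← hN, hcq, div_pow,
          div_le_iff₀ (by positivity)]
        have h2 : (2 : ℝ) ≤ 2 ^ I0.card := le_self_pow₀ (by norm_num) hc0
        have h3 : q ^ I0.card / 2 ^ I0.card ≤ q ^ I0.card / 2 := by gcongr
        nlinarith)
    exact ⟨G, fun A hA => hG1 A (by simpa using hA), hG2⟩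

lemma Cov.exists_label {p : ℝ} {k : ℕ} {H : Finset E} (h : Cov Γ p k H) :
    ∃ F : Fin k → Finset E, (∀ i, Good Γ p (F i)) ∧ ∀ e ∈ H, ∃ i, e ∈ F i := by
  obtain ⟨L, h1, h2, h3⟩ := h
  refine ⟨fun i => if h : (i : ℕ) < L.card then (L.equivFin.symm ⟨i, h⟩ : Finset E) else ∅, ?_, ?_⟩
  · intro i
    dsimp only
    split_ifs with h
    · exact h2 _ (L.equivFin.symm ⟨i, h⟩).2
    · exact good_empty p
  · intro e he
    obtain ⟨F, hF, heF⟩ := h3 e he
    refine ⟨⟨(L.equivFin ⟨F, hF⟩ : ℕ), lt_of_lt_of_le (L.equivFin ⟨F, hF⟩).2 h1⟩, ?_⟩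
    simp [heF]

end General

lemma gnp_ge_of_good {n : ℕ} {p : ℝ} (hp0 : 0 ≤ p) (hp1 : p ≤ 1) {W : Type} (K : SimpleGraph W)
    (ι : W → Fin n) (hι : Function.Injective ι) (F : Finset (Sym2 (Fin n)))
    (hF : ∀ a b, K.Adj a b → s(ι a, ι b) ∈ F) (hgood : Good (Perm (Fin n)) p F) :
    1 / 2 ≤ gnpProb n p {G | K.IsContained G} := by
  classical
  refine hgood.trans ?_
  have h1 := sum_wt_marginal p (Subtype.val : EdgeSlot n → Sym2 (Fin n)) Subtype.val_injective
    (fun T => if K.IsContained (edgeGraph T) then 1 else 0)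
  have h2 : gnpProb n p {G | K.IsContained G} =
      ∑ T : Finset (EdgeSlot n), wt p T * (if K.IsContained (edgeGraph T) then 1 else 0) := by
    unfold gnpProb Crest.FinProb.bernoulliProb
    rw [sum_filter]
    let e : (EdgeSlot n → Bool) ≃ Finset (EdgeSlot n) :=
      { toFun := fun ω => univ.filter (fun z => ω z = true)
        invFun := fun T z => decide (z ∈ T)
        left_inv := by intro ω; funext z; simp
        right_inv := by intro T; ext z; simp }
    apply Fintype.sum_equiv e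
    intro ω
    have h3 : edgeGraph (e ω) = graphOf ω := by
      unfold edgeGraph graphOf
      simp [e]
    have h4 : wt p (e ω) = Crest.FinProb.bernoulliWeight p ω := by
      unfold wt Crest.FinProb.bernoulliWeight
      simp [e]
    rw [h3, h4]
    simp only [Set.mem_ofPred_eq, mul_ite, mul_one, mul_zero]
  rw [h2, ← h1, sum_filter]
  apply sum_le_sum
  intro G _
  split_ifs with h3 h4
  · simp
  · exfalso
    apply h4
    obtain ⟨γ, hγ⟩ := h3
    refine ⟨⟨⟨fun w => γ (ι w), ?_⟩, γ.injective.comp hι⟩⟩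
    intro a b hab
    have hne : γ (ι a) ≠ γ (ι b) := fun h => hab.ne (hι (γ.injective h))
    unfold edgeGraph
    rw [SimpleGraph.fromEdgeSet_adj]
    refine ⟨⟨by simpa using hne, ?_⟩, hne⟩
    simp only [mem_filter, mem_univ, true_and]
    exact hγ (smul_mem_smul_finset (a := γ) (hF a b hab))
  · simpa using wt_nonneg hp0 hp1 G
  · simp

theorem decomposition :
    ∃ k : ℕ, 2 ≤ k ∧ ∃ L : ℝ, 1 ≤ L ∧ ∀ n : ℕ, 2 ≤ n →
      ∀ (W : Type) [Fintype W] [DecidableEq W] (H : SimpleGraph W),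
        Fintype.card W ≤ n → H ≠ ⊥ →
        ∃ c : H.edgeSet → Fin k, ∀ i : Fin k, ∃ p : ℝ, 0 ≤ p ∧ p ≤ 1 ∧
          (∃ C : Finset (Finset (EdgeSlot n)),
            (∀ A : Finset (EdgeSlot n), H.IsContained (edgeGraph A) → ∃ S ∈ C, S ⊆ A) ∧
            ∑ S ∈ C, p ^ S.card ≤ 1 / 2) ∧
          1 / 2 ≤ gnpProb n (min 1 (L * p)) {G | (pieceGraph H c i).IsContained G} := by
  classical
  refine ⟨9792, by norm_num, 256 * 2 ^ 21, by norm_num, ?_⟩
  intro n hn W _ _ H hW hH
  have : Nonempty (Fin n) := ⟨⟨0, by omega⟩⟩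
  obtain ⟨ι⟩ : Nonempty (W ↪ Fin n) := Function.Embedding.nonempty_of_card_le (by simpa using hW)
  let H0 : Finset (Sym2 (Fin n)) := H.edgeFinset.image (Sym2.map ι)
  have hmem : ∀ e, e ∈ H0 ↔ ∃ a b, H.Adj a b ∧ e = s(ι a, ι b) := by
    intro e
    simp only [H0, mem_image, SimpleGraph.mem_edgeFinset]
    constructor
    · rintro ⟨e', he', rfl⟩
      induction e' using Sym2.ind with
      | h a b => exact ⟨a, b, he', rfl⟩
    · rintro ⟨a, b, hab, rfl⟩
      exact ⟨s(a, b), hab, rfl⟩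
  have hloop : ∀ e ∈ H0, ¬ e.IsDiag := by
    intro e he
    obtain ⟨a, b, hab, rfl⟩ := (hmem e).mp he
    simpa using hab.ne
  have hne : H0.Nonempty := by
    obtain ⟨a, b, hab⟩ := SimpleGraph.ne_bot_iff_exists_adj.mp hH
    exact ⟨_, (hmem _).mpr ⟨a, b, hab, rfl⟩⟩
  obtain ⟨q, hq0, hq1, hs, G, hG1, hG2⟩ := exists_spread_cover (Γ := Perm (Fin n)) H0 hne
  have hcov : Cov (Perm (Fin n)) (min 1 (256 * q)) 9792 H0 := by
    rcases le_total 1 (256 * q) with h | h
    · rw [min_eq_left h]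
      exact ⟨{H0}, by simp, fun F _ => good_one F, fun e he => ⟨H0, by simp, he⟩⟩
    · rw [min_eq_right h]
      exact cov_of_spread hq0 le_rfl h H0 hloop hs
  obtain ⟨F, hF1, hF2⟩ := hcov.exists_label
  have hlab : ∀ e : H.edgeSet, ∃ i, Sym2.map ι e.1 ∈ F i := fun e =>
    hF2 _ (mem_image_of_mem _ (SimpleGraph.mem_edgeFinset.mpr e.2))
  choose c hc using hlab
  refine ⟨c, fun i => ⟨q / 2 ^ 21, by positivity, ?_, ?_, ?_⟩⟩
  · rw [div_le_one (by positivity)]; linarith
  · refine ⟨(G.filter (fun S => ∀ e ∈ S, ¬ e.IsDiag)).image (Finset.subtype (fun e : Sym2 (Fin n) => ¬ e.IsDiag)),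
      ?_, ?_⟩
    · rintro A ⟨f⟩
      obtain ⟨γ, hγ⟩ := Perm.exists_extending_pair ι f ι.injective f.injective
      obtain ⟨S, hS, hSA⟩ := hG1 (A.map (Function.Embedding.subtype _)) ⟨γ, by
        intro e he
        obtain ⟨e', he', rfl⟩ := mem_smul_finset.mp he
        obtain ⟨a, b, hab, rfl⟩ := (hmem e').mp he'
        rw [smul_mk, hγ, hγ]
        have := f.toHom.map_adj hab
        unfold edgeGraph at this
        rw [SimpleGraph.fromEdgeSet_adj] at this
        obtain ⟨⟨h, hA⟩, -⟩ := this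
        exact mem_map.mpr ⟨_, hA, rfl⟩⟩
      refine ⟨_, mem_image_of_mem _ (mem_filter.mpr ⟨hS, ?_⟩), ?_⟩
      · intro e he
        obtain ⟨z, -, rfl⟩ := mem_map.mp (hSA he)
        exact z.2
      · intro z hz
        rw [mem_subtype] at hz
        obtain ⟨z', hz', h⟩ := mem_map.mp (hSA hz)
        rwa [← Subtype.ext h]
    · refine le_trans (sum_image_le_of_nonneg (fun _ _ => by positivity)) (le_trans ?_ hG2)
      refine le_trans (le_of_eq ?_) (sum_le_sum_of_subset_of_nonneg
        (filter_subset (fun S => ∀ e ∈ S, ¬ e.IsDiag) G) (fun _ _ _ => by positivity))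
      apply sum_congr rfl
      intro S hS
      rw [card_subtype, filter_true_of_mem (mem_filter.mp hS).2]
  · rw [show 256 * 2 ^ 21 * (q / 2 ^ 21) = 256 * q by ring]
    apply gnp_ge_of_good (le_min zero_le_one (by positivity)) (min_le_left _ _) _ ι ι.injective
      (F i) _ (hF1 i)
    intro a b hab
    unfold pieceGraph at hab
    rw [SimpleGraph.fromEdgeSet_adj] at hab
    obtain ⟨⟨h, hi⟩, -⟩ := hab
    rw [← hi]
    exact hc ⟨s(a, b), h⟩

end Crest.Agent.R52
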